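import Crest.Agent.X212.Hp13.Sd
import Crest.Agent.X212.Alg36.Hp1

-- ▼ part X212/Hp13/Side
section

/-!
# X212 / Hp13 (helper13): a connected piece of a hypersurface has at most two sides
-/

set_option autoImplicit false
set_option linter.unusedSectionVars false

open Finset Classical

noncomputable section

namespace Crest.Agent.X212.Hp13

section sub

variable {P : Type} [PartialOrder P] {Q : Set P}

theorem val_mono (Q : Set P) : Monotone (Subtype.val : Q → P) := fun _ _ h => h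

/-- a chain of the subposet `Q` as a chain of `P` -/
def Ch.up (c : Ch Q) : Ch P := Ch.img Subtype.val (val_mono Q) c

theorem Ch.mem_up {c : Ch Q} {x : P} : x ∈ c.up.1 ↔ ∃ h : x ∈ Q, (⟨x, h⟩ : Q) ∈ c.1 :=
  Ch.mem_img.trans ⟨fun ⟨a, ha, e⟩ => e ▸ ⟨a.2, ha⟩, fun ⟨h, k⟩ => ⟨⟨x, h⟩, k, rfl⟩⟩

theorem Ch.val_mem_up {c : Ch Q} {x : Q} : x.1 ∈ c.up.1 ↔ x ∈ c.1 :=
  Ch.mem_up.trans ⟨fun ⟨_, h⟩ => h, fun h => ⟨x.2, h⟩⟩

theorem Ch.up_sub (c : Ch Q) : ∀ x ∈ c.up.1, x ∈ Q := fun _ hx => (Ch.mem_up.1 hx).1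

theorem Ch.up_le {c d : Ch Q} : c.up ≤ d.up ↔ c ≤ d :=
  ⟨fun h _ hx => Ch.val_mem_up.1 (h (Ch.val_mem_up.2 hx)), fun h => Ch.img_mono _ h⟩

theorem Ch.up_inj {c d : Ch Q} (h : c.up = d.up) : c = d :=
  le_antisymm (Ch.up_le.1 h.le) (Ch.up_le.1 h.ge)

theorem Ch.up_lt {c d : Ch Q} : c.up < d.up ↔ c < d := by
  simp only [lt_iff_le_not_ge, Ch.up_le]

theorem Ch.card_up (c : Ch Q) : c.up.1.card = c.1.card :=
  card_image_of_injective _ Subtype.val_injective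

theorem Ch.sg_up (c : Ch Q) : c.up.sg = c.sg := by rw [Ch.sg, Ch.sg, Ch.card_up]
theorem Ch.top_up (c : Ch Q) : c.up.top = c.top.1 := Ch.top_img _ c
theorem Ch.bot_up (c : Ch Q) : c.up.bot = c.bot.1 := Ch.bot_img _ c
theorem mt_up {A : Set P} {c : Ch Q} : Mt A c.up ↔ Mt (Subtype.val ⁻¹' A) c := mt_img _

theorem Ch.exists_up {c : Ch P} (h : ∀ x ∈ c.1, x ∈ Q) : ∃ d : Ch Q, d.up = c := by
  obtain ⟨x, hx⟩ := c.2.1
  refine ⟨Ch.mk' (c.1.subtype (· ∈ Q)) ⟨⟨x, h x hx⟩, mem_subtype.2 hx⟩ fun a ha b hb =>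
    c.cm (mem_subtype.1 ha) (mem_subtype.1 hb), Ch.ext (Finset.ext fun y => Ch.mem_up.trans ?_)⟩
  exact ⟨fun ⟨_, k⟩ => mem_subtype.1 k, fun k => ⟨h y k, mem_subtype.2 k⟩⟩

theorem Ch.eq_of_card {c d : Ch P} (h : c ≤ d) (hc : d.1.card ≤ c.1.card) : c = d :=
  Ch.ext (eq_of_subset_of_card_le h hc)

theorem Ch.card_le {c d : Ch P} (h : c ≤ d) : c.1.card ≤ d.1.card := card_le_card h

end sub

variable {P : Type} [PartialOrder P] [Fintype P] {A Q E : Set P} {d : ℕ}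

/-- local form of `Alg36.Mf.star` -/
theorem Mf.star' (h : Mf d A) (Z : Ch P → Prop) {c₀ : Ch P} (hc₀ : Mt A c₀)
    (hZ : ∀ e : Ch P, c₀ ≤ e → e.1.card = d → ∀ a b, e < a → e < b → Z a → Z b)
    {a b : Ch P} (ha : c₀ ≤ a) (hb : c₀ ≤ b) (ha' : a.1.card = d + 1)
    (hb' : b.1.card = d + 1) (hz : Z a) : Z b := by
  suffices H : ∀ n, ∀ c a b : Ch P, d + 1 - c.1.card = n → c₀ ≤ c → c ≤ a → c ≤ b →
      a.1.card = d + 1 → b.1.card = d + 1 → Z a → Z b from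
    H _ c₀ a b rfl le_rfl ha hb ha' hb' hz
  intro n
  induction n using Nat.strong_induction_on with
  | _ n ih =>
  intro c a b hn h0 ha hb ha' hb' hz
  have hc := hc₀.mono h0
  have hle := h.card_le c hc
  by_cases h1 : c.1.card = d + 1
  · exact Ch.eq_of_card hb (by omega) ▸ Ch.eq_of_card ha (by omega) ▸ hz
  have la : c < a := lt_of_le_of_ne ha fun e => h1 (e ▸ ha')
  have lb : c < b := lt_of_le_of_ne hb fun e => h1 (e ▸ hb')
  by_cases h2 : c.1.card = d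
  · exact hZ c h0 h2 a b la lb hz
  refine (h.conn c hc (by omega) a la b lb).ind
    (p := fun t => ∀ s, t ≤ s → s.1.card = d + 1 → Z s) ?_ ?_ b le_rfl hb'
  · exact fun s hs hs' => Ch.eq_of_card hs (by omega) ▸ hz
  · intro t ht t' _ htt
    refine ⟨fun H s hs hs' => H s (htt.trans hs) hs', fun H s hs hs' => ?_⟩
    have hm : Mt A t := hc.mono (le_of_lt ht)
    obtain ⟨r, hr, hr'⟩ := h.pure t' (hm.mono htt)
    have hlt := Ch.card_lt ht
    have := h.card_le t hm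
    exact ih _ (by omega) t r s rfl (h0.trans (le_of_lt ht)) (htt.trans hr) hs hr' hs' (H r hr hr')

theorem card_between {f a : Ch P} (h : f ≤ a) (hc : a.1.card = f.1.card + 2) :
    (univ.filter fun g : Ch P => f < g ∧ g < a).card = 2 := by
  have : (a.1 \ f.1).card = 2 := by rw [card_sdiff_of_subset h]; omega
  rw [← this]
  symm
  refine card_bij (fun x hx => f.ins x fun y hy => a.cm (mem_sdiff.1 hx).1 (h hy)) ?_ ?_ ?_
  · intro x hx
    obtain ⟨h1, h2⟩ := mem_sdiff.1 hx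
    refine mem_filter.2 ⟨mem_univ _, lt_of_le_of_ne (f.le_ins _ _) fun e => h2 ?_,
      lt_of_le_of_ne (insert_subset h1 h) fun e => ?_⟩
    · rw [e]; exact mem_insert_self _ _
    · have := congrArg (fun c : Ch P => c.1.card) e
      simp only [Ch.ins_val, card_insert_of_notMem h2] at this
      omega
  · intro x hx y hy e
    have : x ∈ insert y f.1 := by
      have e' : insert x f.1 = insert y f.1 := congrArg Subtype.val e
      exact e' ▸ mem_insert_self _ _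
    exact (mem_insert.1 this).resolve_right (mem_sdiff.1 hx).2
  · intro g hg
    obtain ⟨h1, h2⟩ := (mem_filter.1 hg).2
    have c1 := Ch.card_lt h1
    have c2 := Ch.card_lt h2
    obtain ⟨x, hx, hx'⟩ := exists_mem_notMem_of_card_lt_card c1
    refine ⟨x, mem_sdiff.2 ⟨h2.le hx, hx'⟩, Ch.eq_of_card (insert_subset hx h1.le) ?_⟩
    simp only [Ch.ins_val, card_insert_of_notMem hx']
    omega

/-- the punctured neighbourhood of `E` off `Q` -/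
def Nb (Q E : Set P) : Set (Ch P) := {c | Mt E c ∧ ∃ t ∈ c.1, t ∉ Q}

theorem Nb.mono {c c' : Ch P} (h : c ∈ Nb Q E) (hc : c ≤ c') : c' ∈ Nb Q E :=
  let ⟨h1, t, ht, h2⟩ := h; ⟨h1.mono hc, t, hc ht, h2⟩

theorem Mt.sub {c : Ch P} (h : Mt E c) (hE : E ⊆ A) : Mt A c :=
  let ⟨a, ha, h⟩ := h; ⟨a, ha, hE h⟩

section side

variable (h : Mf (d + 1) A) (hQ : Mf d (Subtype.val ⁻¹' E : Set Q)) (hE : E ⊆ A)
include h hQ hE

/-- a chain meeting `E` with `d + 2` points leaves `Q` -/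
theorem top_mem_nb {a : Ch P} (ha : Mt E a) (hc : a.1.card = d + 2) : a ∈ Nb Q E := by
  refine ⟨ha, ?_⟩
  by_contra k
  push Not at k
  obtain ⟨b, rfl⟩ := Ch.exists_up k
  have := hQ.card_le b (mt_up.1 ha)
  rw [Ch.card_up] at hc
  omega

theorem side_step {W : Set (Ch P)} (hW : ∀ x ∈ W, ∀ y ∈ Nb Q E, Cm x y → y ∈ W)
    {f e e' : Ch Q} (hf : Mt (Subtype.val ⁻¹' E) f) (hc : f.1.card = d) (he : f < e) (he' : f < e')
    (hz : ∃ t ∈ W, e.up < t) : ∃ t ∈ W, e'.up < t := by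
  by_contra hn
  push Not at hn
  obtain ⟨t, htW, ht⟩ := hz
  have hfE : Mt E f.up := mt_up.2 hf
  have hfA := hfE.sub hE
  have cf : f.up.1.card = d := by rw [Ch.card_up, hc]
  have cardQ : ∀ g : Ch Q, f < g → g.up.1.card = d + 1 := fun g hg => by
    have := hQ.card_le g (hf.mono hg.le)
    have := Ch.card_lt hg
    rw [Ch.card_up]; omega
  have top : ∀ g a : Ch P, f.up ≤ g → g.1.card = d + 1 → g < a → a.1.card = d + 1 + 1 :=
    fun g a h1 h2 h3 => by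
      have := h.card_le a (hfA.mono (h1.trans h3.le))
      have := Ch.card_lt h3
      omega
  have hne : e ≠ e' := fun k => hn t htW (k ▸ ht)
  -- facets through `f`
  have fac : ∀ g : Ch P, f.up ≤ g → g.1.card = d + 1 → g ∈ Nb Q E ∨ g = e.up ∨ g = e'.up := by
    intro g h1 h2
    by_cases k : ∃ t ∈ g.1, t ∉ Q
    · exact Or.inl ⟨hfE.mono h1, k⟩
    push Not at k
    obtain ⟨b, rfl⟩ := Ch.exists_up k
    have hb : f < b := Ch.up_lt.1 (lt_of_le_of_ne h1 fun k => by rw [← k] at h2; omega)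
    rcases Alg36.Mf.two hQ hf hc hb he he' with k | k | k
    exacts [Or.inr (Or.inl (k ▸ rfl)), Or.inr (Or.inr (k ▸ rfl)), absurd k hne]
  -- parity
  have both : ∀ b, e.up < b → b ∈ W := by
    set Ed := univ.filter fun a : Ch P => f.up ≤ a ∧ a.1.card = d + 2 ∧ a ∈ W with hEd
    set Ve := univ.filter fun g : Ch P => f.up ≤ g ∧ g.1.card = d + 1 with hVe
    have dc := sum_card_bipartiteAbove_eq_sum_card_bipartiteBelow (s := Ve) (t := Ed) (· < ·)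
    have r : ∀ a ∈ Ed, (bipartiteBelow (· < ·) Ve a).card = 2 := fun a ha => by
      obtain ⟨h1, h2, -⟩ := (mem_filter.1 ha).2
      rw [← card_between h1 (by omega)]
      congr 1
      ext g
      simp only [mem_bipartiteBelow, hVe, mem_filter, mem_univ, true_and]
      refine ⟨fun k => ⟨lt_of_le_of_ne k.1.1 fun k' => ?_, k.2⟩, fun k => ⟨⟨k.1.le, ?_⟩, k.2⟩⟩
      · have := k.1.2; rw [← k'] at this; omega
      · have := Ch.card_lt k.1; have := Ch.card_lt k.2; omega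
    have l : ∀ g ∈ Ve, bipartiteAbove (· < ·) Ed g = univ.filter fun a => g < a ∧ a ∈ W :=
      fun g hg => by
        obtain ⟨h1, h2⟩ := (mem_filter.1 hg).2
        ext a
        simp only [mem_bipartiteAbove, hEd, mem_filter, mem_univ, true_and]
        exact ⟨fun k => ⟨k.2, k.1.2.2⟩, fun k => ⟨⟨h1.trans k.1.le, top g a h1 h2 k.1, k.2⟩, k.1⟩⟩
    have heV : e.up ∈ Ve := mem_filter.2 ⟨mem_univ _, Ch.up_le.2 he.le, cardQ e he⟩
    rw [sum_congr rfl r, ← add_sum_erase _ _ heV, l _ heV] at dc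
    have ev : Even (∑ g ∈ Ve.erase e.up, (bipartiteAbove (· < ·) Ed g).card) := by
      refine even_sum _ fun g hg => ?_
      obtain ⟨g1, hg⟩ := mem_erase.1 hg
      obtain ⟨h1, h2⟩ := (mem_filter.1 hg).2
      rw [l g hg]
      by_cases k : ∃ a ∈ W, g < a
      · obtain ⟨a, a1, a2⟩ := k
        rcases fac g h1 h2 with k | k | k
        · have gW := hW a a1 g k (Or.inr a2.le)
          rw [filter_congr (q := fun a => g < a) fun a _ =>
            ⟨fun k => k.1, fun k' => ⟨k', hW g gW a (Nb.mono k k'.le) (Or.inl k'.le)⟩⟩,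
            Alg36.Mf.card_two h (hfA.mono h1) h2]
          exact even_two
        · exact absurd k g1
        · exact absurd (k ▸ a2) (hn a a1)
      · rw [filter_false_of_mem fun a _ k' => k ⟨a, k'.2, k'.1⟩]
        simp
    have c2 := Alg36.Mf.card_two h (hfA.mono (Ch.up_le.2 he.le)) (cardQ e he)
    have sub : (univ.filter fun a => e.up < a ∧ a ∈ W) ⊆ univ.filter (e.up < ·) :=
      fun a ha => mem_filter.2 ⟨mem_univ _, (mem_filter.1 ha).2.1⟩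
    have pos : 0 < (univ.filter fun a => e.up < a ∧ a ∈ W).card :=
      card_pos.2 ⟨t, mem_filter.2 ⟨mem_univ _, ht, htW⟩⟩
    have le := card_le_card sub
    obtain ⟨m, hm⟩ := ev
    simp only [sum_const, smul_eq_mul] at dc
    have := eq_of_subset_of_card_le sub (by omega)
    intro b hb
    have hb' : b ∈ univ.filter (e.up < ·) := mem_filter.2 ⟨mem_univ _, hb⟩
    rw [← this] at hb'
    exact (mem_filter.1 hb').2.2
  have l1 : f.up ≤ e.up := Ch.up_le.2 he.le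
  have l2 : f.up ≤ e'.up := Ch.up_le.2 he'.le
  obtain ⟨b, hb, hb'⟩ := h.pure e'.up (hfA.mono l2)
  have hb2 : e'.up < b := lt_of_le_of_ne hb fun k => by have := cardQ e' he'; rw [k] at this; omega
  refine hn b (h.star' (· ∈ W) hfA (fun g h1 h2 a b ha hb hz => ?_) (l1.trans ht.le) (l2.trans hb)
    (top _ _ l1 (cardQ e he) ht) hb' htW) hb2
  rcases fac g h1 h2 with k | k | k
  · exact hW g (hW a hz g k (Or.inr ha.le)) b (Nb.mono k hb.le) (Or.inl hb.le)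
  · exact both b (k ▸ hb)
  · exact absurd (k ▸ ha) (hn a hz)

theorem side_start (hEQ : E ⊆ Q) {W : Set (Ch P)} (hW : ∀ x ∈ W, ∀ y ∈ Nb Q E, Cm x y → y ∈ W)
    {c : Ch P} (hc : c ∈ W) (hcN : c ∈ Nb Q E) {x : P} (hx : x ∈ c.1) (hxE : x ∈ E) :
    ∃ e : Ch Q, ⟨x, hEQ hxE⟩ ∈ e.1 ∧ e.1.card = d + 1 ∧ ∃ t ∈ W, e.up < t := by
  by_contra hn
  push Not at hn
  have hxA : Mt A (Ch.pt x) := mt_pt.2 (hE hxE)
  obtain ⟨a, ha, ha'⟩ := h.pure c (hcN.1.sub hE)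
  obtain ⟨e, he, he'⟩ := hQ.pure (Ch.pt ⟨x, hEQ hxE⟩) (mt_pt.2 hxE)
  have xe : x ∈ e.up.1 := Ch.val_mem_up.2 (Ch.pt_le.1 he)
  obtain ⟨b, hb, hb'⟩ := h.pure e.up ⟨x, xe, hE hxE⟩
  refine hn e (Ch.pt_le.1 he) he' b (h.star' (· ∈ W) hxA (fun g h1 h2 a b ha hb hz => ?_)
    (Ch.pt_le.2 (ha hx)) (Ch.pt_le.2 (hb xe)) ha' hb' (hW c hc a (Nb.mono hcN ha) (Or.inl ha)))
    (lt_of_le_of_ne hb fun k => by rw [← k, Ch.card_up] at hb'; omega)
  by_cases k : ∃ t ∈ g.1, t ∉ Q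
  · have k : g ∈ Nb Q E := ⟨⟨x, Ch.pt_le.1 h1, hxE⟩, k⟩
    exact hW g (hW a hz g k (Or.inr ha.le)) b (Nb.mono k hb.le) (Or.inl hb.le)
  · push Not at k
    obtain ⟨g, rfl⟩ := Ch.exists_up k
    exact absurd ha (hn g (Ch.val_mem_up.1 (Ch.pt_le.1 h1)) (g.card_up ▸ h2) a hz)

/-- every side of `E` is seen from every top cell of `Q` that meets `E` -/
theorem side_all (hEQ : E ⊆ Q) (hc : Conn E) {c : Ch P} (hcN : c ∈ Nb Q E) {e : Ch Q}
    (he : Mt (Subtype.val ⁻¹' E) e) (he' : e.1.card = d + 1) :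
    ∃ t, e.up < t ∧ Rch (Nb Q E) c t := by
  obtain ⟨x, hx, hxE⟩ := hcN.1
  obtain ⟨y, hy, hyE⟩ := he
  have hW : ∀ x ∈ cmp (Nb Q E) c, ∀ y ∈ Nb Q E, Cm x y → y ∈ cmp (Nb Q E) c :=
    fun x hx y hy k => (isCmp_cmp hcN).clopen hx hy k
  obtain ⟨e₀, h1, h2, h3⟩ := side_start h hQ hE hEQ hW (mem_cmp_self hcN) hcN hx hxE
  have r : Rch (Subtype.val ⁻¹' E : Set Q) ⟨x, hEQ hxE⟩ y := by
    have : ∀ hy : y.1 ∈ Q, Rch (Subtype.val ⁻¹' E : Set Q) ⟨x, hEQ hxE⟩ ⟨y.1, hy⟩ :=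
      (hc x hxE y.1 hyE).ind (p := fun t => ∀ ht : t ∈ Q,
        Rch (Subtype.val ⁻¹' E : Set Q) ⟨x, hEQ hxE⟩ ⟨t, ht⟩) (fun _ => Rch.rfl)
        fun a ha b hb hab =>
          ⟨fun H _ => (H (hEQ ha)).trans (Rch.of_cm ha hb (Or.inl hab)),
            fun H _ => (H (hEQ hb)).trans (Rch.of_cm hb ha (Or.inr hab))⟩
    exact this y.2
  obtain ⟨t, t1, t2⟩ := Alg36.Mf.along hQ (fun e => ∃ t ∈ cmp (Nb Q E) c, e.up < t)
    (fun f hf hfc a b ha hb => side_step h hQ hE hW hf hfc ha hb) hxE r h1 hy h2 he' h3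
  exact ⟨t, t2, t1.2⟩

/-- **SIDE**: at most two sides -/
theorem side (hEQ : E ⊆ Q) (hc : Conn E) {a b c : Ch P} (ha : a ∈ Nb Q E) (hb : b ∈ Nb Q E)
    (hc' : c ∈ Nb Q E) : Rch (Nb Q E) a b ∨ Rch (Nb Q E) a c ∨ Rch (Nb Q E) b c := by
  obtain ⟨x, -, hxE⟩ := ha.1
  obtain ⟨e, he, he'⟩ := hQ.pure (Ch.pt ⟨x, hEQ hxE⟩) (mt_pt.2 hxE)
  have m : Mt (Subtype.val ⁻¹' E) e := ⟨_, Ch.pt_le.1 he, hxE⟩
  obtain ⟨t1, a1, a2⟩ := side_all h hQ hE hEQ hc ha m he'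
  obtain ⟨t2, b1, b2⟩ := side_all h hQ hE hEQ hc hb m he'
  obtain ⟨t3, c1, c2⟩ := side_all h hQ hE hEQ hc hc' m he'
  rcases Alg36.Mf.two h ((mt_up.2 m).sub hE) (e.card_up ▸ he') a1 b1 c1 with k | k | k
  · exact Or.inl (a2.trans (k ▸ b2.symm))
  · exact Or.inr (Or.inl (a2.trans (k ▸ c2.symm)))
  · exact Or.inr (Or.inr (b2.trans (k ▸ c2.symm)))

end side

end Crest.Agent.X212.Hp13
end
end

-- ▼ part X212/Hp13/Mv
section

/-!
# X212 / Hp13 (helper13): MOVE, the cells of `z` and of `z + δ 1_E`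
-/

set_option autoImplicit false
set_option linter.unusedSectionVars false

open Finset Classical

noncomputable section

namespace Crest.Agent.X212.Hp13

section bas

variable {P : Type} [PartialOrder P] {A E : Set P} {z : P → P → ℤ}

theorem Lv.ext {p q : Lv A z} (h1 : p.1.1 = q.1.1) (h2 : p.1.2 = q.1.2) : p = q :=
  Subtype.ext (Prod.ext h1 h2)

theorem Lv.le_iff [hz : IsCoc A z] {p q : Lv A z} :
    p ≤ q ↔ p.1.1 ≤ q.1.1 ∧ q.1.2 = p.1.2 + z q.1.1.bot p.1.1.bot := by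
  have k : ∀ p : Lv A z, z p.1.1.bot p.1.1.bot = 0 := fun p =>
    let ⟨a, ha, h⟩ := p.2.1; hz.coc.self ha (h _ p.1.1.bot_mem)
  refine ⟨?_, fun ⟨h1, h2⟩ => ?_⟩
  · rintro (rfl | h)
    · exact ⟨le_rfl, by rw [k, add_zero]⟩
    · exact ⟨h.1.le, h.2⟩
  · rcases h1.eq_or_lt with e | h1
    · exact Or.inl (Lv.ext e (by rw [h2, ← e, k, add_zero]))
    · exact Or.inr ⟨h1, h2⟩

theorem Lv.le_def [IsCoc A z] {p q : Lv A z} : Lv.le p q ↔ p ≤ q := Iff.rfl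

theorem Lv.ch_le [IsCoc A z] {p q : Lv A z} (h : p ≤ q) : p.1.1 ≤ q.1.1 := (Lv.le_iff.1 h).1

theorem LA.upper [IsCoc A z] {p q : Lv A z} (hp : p ∈ LA A z) (h : p ≤ q) : q ∈ LA A z :=
  Mt.mono hp (Lv.ch_le h)

/-- every cell has a coface on every larger chain -/
theorem Lv.exists_ge [hz : IsCoc A z] (hm : Mono A z) (p : Lv A z) {c : Ch P} (hc : Dom A c)
    (h : p.1.1 ≤ c) : ∃ q : Lv A z, q.1.1 = c ∧ p ≤ q := by
  have b := h p.1.1.bot_mem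
  have t := h p.1.1.top_mem
  have e1 := hz.coc.add' hc c.bot_mem b c.top_mem (Ch.bot_le b) (Ch.le_top b)
  have e2 := hz.coc.add' hc b t c.top_mem p.1.1.bot_le_top (Ch.le_top t)
  have m1 := hm _ _ (hc.dp c.bot_mem b (Ch.bot_le b))
  have m2 := hm _ _ (hc.dp t c.top_mem (Ch.le_top t))
  have := p.2.2
  exact ⟨⟨(c, p.1.2 + z c.bot p.1.1.bot), hc, by simp only; omega, by simp only; omega⟩, rfl,
    Lv.le_iff.2 ⟨h, rfl⟩⟩

/-- raise `z` on `E` -/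
def up (z : P → P → ℤ) (E : Set P) : P → P → ℤ := z + cb (ind E)

theorem up_apply (x y : P) : up z E x y = z x y + (ind E y - ind E x) := rfl

instance [hz : IsCoc A z] : IsCoc A (up z E) := ⟨hz.coc.add (coc_cb _)⟩

theorem up_sub (w : P → P → ℤ) (E : Set P) : up (w - cb (ind E)) E = w := sub_add_cancel _ _

theorem eqv_up (hE : E ⊆ A) : Eqv A z (up z E) := eqv_add_cb fun _ h => ind_of_not fun k => h (hE k)

/-- the hypotheses of a move -/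
structure Mv (A : Set P) (z : P → P → ℤ) (E : Set P) : Prop where
  lo : Mono A z
  hi : Mono A (up z E)
  flat : ∀ x y, Dp A x y → x ∈ E → y ∈ E → z x y = 0

/-- raising -/
theorem mv_of_raise (hm : Mono A z) (h1 : ∀ x y, Dp A x y → x ∈ E → y ∉ E → 1 ≤ z x y)
    (h2 : ∀ x y, Dp A x y → x ∈ E → y ∈ E → z x y = 0) : Mv A z E :=
  ⟨hm, fun x y hp => by
    have := hm x y hp
    rw [up_apply]
    by_cases hx : x ∈ E <;> by_cases hy : y ∈ E <;> simp only [ind, hx, hy, if_true, if_false]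
    · omega
    · have := h1 x y hp hx hy; omega
    · omega
    · omega, h2⟩

/-- lowering -/
theorem mv_of_lower {w : P → P → ℤ} (hm : Mono A w)
    (h1 : ∀ x y, Dp A x y → x ∉ E → y ∈ E → 1 ≤ w x y)
    (h2 : ∀ x y, Dp A x y → x ∈ E → y ∈ E → w x y = 0) : Mv A (w - cb (ind E)) E :=
  ⟨fun x y hp => by
    have := hm x y hp
    simp only [Pi.sub_apply, cb]
    by_cases hx : x ∈ E <;> by_cases hy : y ∈ E <;> simp only [ind, hx, hy, if_true, if_false]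
    · omega
    · omega
    · have := h1 x y hp hx hy; omega
    · omega, by rwa [up_sub], fun x y hp hx hy => by
    simp only [Pi.sub_apply, cb, ind, hx, hy, if_true, h2 x y hp hx hy]; rfl⟩

theorem Mv.one_le (h : Mv A z E) {x y : P} (hp : Dp A x y) (hx : x ∈ E) (hy : y ∉ E) :
    1 ≤ z x y := by
  have := h.hi x y hp
  rw [up_apply, ind_of_mem hx, ind_of_not hy] at this
  omega

theorem ind_nonneg (x : P) : 0 ≤ ind E x := by unfold ind; split_ifs <;> norm_num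
theorem ind_le_one (x : P) : ind E x ≤ 1 := by unfold ind; split_ifs <;> norm_num

/-- the cells of `z` that disappear when `z` is raised on `E` -/
def CY (A : Set P) (z : P → P → ℤ) (E : Set P) : Set (Lv A z) :=
  {q | q.1.1.bot ∈ E ∧ q.1.2 = 0}

/-- the cells of `up z E` that are new -/
def CX (A : Set P) (z : P → P → ℤ) (E : Set P) : Set (Lv A (up z E)) :=
  {p | p.1.1.top ∈ E ∧ p.1.2 + 1 = up z E p.1.1.bot p.1.1.top}

/-- corresponding cells -/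
def MR (q : Lv A z) (p : Lv A (up z E)) : Prop :=
  p.1.1 = q.1.1 ∧ q.1.2 = p.1.2 + ind E q.1.1.bot

theorem MR.uniq {q : Lv A z} {p p' : Lv A (up z E)} (h : MR q p) (h' : MR q p') : p = p' :=
  Lv.ext (h.1.trans h'.1.symm) (by have := h.2; have := h'.2; omega)

theorem MR.uniq' {q q' : Lv A z} {p : Lv A (up z E)} (h : MR q p) (h' : MR q' p) : q = q' :=
  Lv.ext (h.1.symm.trans h'.1) (by rw [h.2, h'.2, ← h.1, ← h'.1])

theorem MR.notY {q : Lv A z} {p : Lv A (up z E)} (h : MR q p) : q ∉ CY A z E := fun k => by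
  have := h.2
  rw [ind_of_mem k.1, k.2] at this
  have := p.2.2.1
  omega

theorem MR.notX {q : Lv A z} {p : Lv A (up z E)} (h : MR q p) : p ∉ CX A z E := fun k => by
  have a := h.2
  have b := k.2
  have c := k.1
  rw [up_apply, ind_of_mem c, h.1] at b
  have := q.2.2.2
  omega

theorem exists_mr {q : Lv A z} (h : q ∉ CY A z E) : ∃ p : Lv A (up z E), MR q p := by
  have := q.2.2
  refine ⟨⟨(q.1.1, q.1.2 - ind E q.1.1.bot), q.2.1, ?_, ?_⟩, rfl, by simp⟩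
  · by_cases k : q.1.1.bot ∈ E
    · have : q.1.2 ≠ 0 := fun e => h ⟨k, e⟩
      simp only [ind_of_mem k]; omega
    · simp only [ind_of_not k]; omega
  · have := ind_nonneg (E := E) q.1.1.top
    simp only [up_apply]; omega

theorem exists_mr' {p : Lv A (up z E)} (h : p ∉ CX A z E) : ∃ q : Lv A z, MR q p := by
  have a := p.2.2
  refine ⟨⟨(p.1.1, p.1.2 + ind E p.1.1.bot), p.2.1, ?_, ?_⟩, rfl, rfl⟩
  · have := ind_nonneg (E := E) p.1.1.bot
    simp only; omega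
  · by_cases k : p.1.1.top ∈ E
    · have : p.1.2 + 1 ≠ up z E p.1.1.bot p.1.1.top := fun e => h ⟨k, e⟩
      rw [up_apply, ind_of_mem k] at this a
      simp only; omega
    · rw [up_apply, ind_of_not k] at a
      simp only; omega

theorem MR.la {q : Lv A z} {p : Lv A (up z E)} (h : MR q p) : q ∈ LA A z ↔ p ∈ LA A (up z E) := by
  simp only [LA, Set.mem_ofPred_eq, h.1]

theorem MR.sg {q : Lv A z} {p : Lv A (up z E)} (h : MR q p) : p.1.1.sg = q.1.1.sg := by rw [h.1]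

variable [hz : IsCoc A z]

theorem MR.le_iff {q q' : Lv A z} {p p' : Lv A (up z E)} (h : MR q p) (h' : MR q' p') :
    q ≤ q' ↔ p ≤ p' := by
  rw [Lv.le_iff, Lv.le_iff, h.1, h'.1, h.2, h'.2, up_apply]
  exact and_congr_right fun _ => by omega

theorem MR.cm_iff {q q' : Lv A z} {p p' : Lv A (up z E)} (h : MR q p) (h' : MR q' p') :
    Cm q q' ↔ Cm p p' := or_congr (h.le_iff h') (h'.le_iff h)

theorem Mv.Y_low (h : Mv A z E) {q q' : Lv A z} (hq : q ∈ CY A z E) (hle : q' ≤ q) :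
    q' ∈ CY A z E := by
  obtain ⟨h1, h2⟩ := Lv.le_iff.1 hle
  have hp := q.2.1.dp q.1.1.bot_mem (h1 q'.1.1.bot_mem) (Ch.bot_anti h1)
  have := h.lo _ _ hp
  have := q'.2.2.1
  have a := hq.2
  refine ⟨by_contra fun k => ?_, by omega⟩
  have := h.one_le hp hq.1 k
  omega

theorem Mv.X_low (h : Mv A z E) {p p' : Lv A (up z E)} (hq : p ∈ CX A z E) (hle : p' ≤ p) :
    p' ∈ CX A z E := by
  obtain ⟨h1, h2⟩ := Lv.le_iff.1 hle
  have hc : Coc A (up z E) := IsCoc.coc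
  have b := h1 p'.1.1.bot_mem
  have t := h1 p'.1.1.top_mem
  have e1 := hc.add' p.2.1 p.1.1.bot_mem b p.1.1.top_mem (Ch.bot_le b) (Ch.le_top b)
  have e2 := hc.add' p.2.1 b t p.1.1.top_mem p'.1.1.bot_le_top (Ch.le_top t)
  have hp := p.2.1.dp t p.1.1.top_mem (Ch.le_top t)
  have m := h.hi _ _ hp
  have := p'.2.2.2
  have a := hq.2
  refine ⟨by_contra fun k => ?_, by omega⟩
  have := h.lo _ _ hp
  have e3 := up_apply (z := z) (E := E) p'.1.1.top p.1.1.top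
  rw [ind_of_mem hq.1, ind_of_not k] at e3
  omega

theorem Mv.Y_top (h : Mv A z E) {q : Lv A z} (hq : q ∈ CY A z E) : q.1.1.top ∉ E := fun k => by
  have := h.flat _ _ q.2.1.bt hq.1 k
  have := q.2.2
  omega

theorem Mv.X_bot (h : Mv A z E) {p : Lv A (up z E)} (hq : p ∈ CX A z E) : p.1.1.bot ∉ E :=
  fun k => by
  have := h.flat _ _ p.2.1.bt k hq.1
  have a := p.2.2
  rw [up_apply, ind_of_mem k, ind_of_mem hq.1] at a
  omega

theorem Mv.exists_Y (h : Mv A z E) {c : Ch P} (hc : Dom A c) (h1 : c.bot ∈ E) (h2 : c.top ∉ E) :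
    ∃ q ∈ CY A z E, q.1.1 = c :=
  ⟨⟨(c, 0), hc, le_rfl, h.one_le hc.bt h1 h2⟩, ⟨h1, rfl⟩, rfl⟩

theorem Mv.exists_X (h : Mv A z E) {c : Ch P} (hc : Dom A c) (h1 : c.top ∈ E) (h2 : c.bot ∉ E) :
    ∃ p ∈ CX A z E, p.1.1 = c := by
  have := h.lo _ _ hc.bt
  refine ⟨⟨(c, z c.bot c.top), hc, this, ?_⟩, ⟨h1, ?_⟩, rfl⟩ <;>
    simp only [up_apply, ind_of_mem h1, ind_of_not h2] <;> omega

/-- transport of connections -/
theorem MR.rch {S : Set (Lv A z)} {T : Set (Lv A (up z E))} (hS : ∀ q ∈ S, ∃ p ∈ T, MR q p)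
    {q q' : Lv A z} {p p' : Lv A (up z E)} (h : MR q p) (h' : MR q' p') (hr : Rch S q q') :
    Rch T p p' := by
  refine hr.ind (p := fun t => ∀ r, MR t r → Rch T p r) (fun r k => h.uniq k ▸ Rch.rfl) ?_ p' h'
  intro a ha b hb hab
  obtain ⟨a', a1, a2⟩ := hS a ha
  obtain ⟨b', b1, b2⟩ := hS b hb
  have := Rch.of_cm a1 b1 (Or.inl ((a2.le_iff b2).1 hab))
  exact ⟨fun H r k => b2.uniq k ▸ (H a' a2).trans this,
    fun H r k => a2.uniq k ▸ (H b' b2).trans this.symm⟩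

theorem MR.rch' {S : Set (Lv A z)} {T : Set (Lv A (up z E))} (hT : ∀ p ∈ T, ∃ q ∈ S, MR q p)
    {q q' : Lv A z} {p p' : Lv A (up z E)} (h : MR q p) (h' : MR q' p') (hr : Rch T p p') :
    Rch S q q' := by
  refine hr.ind (p := fun t => ∀ r, MR r t → Rch S q r) (fun r k => h.uniq' k ▸ Rch.rfl) ?_ q' h'
  intro a ha b hb hab
  obtain ⟨a', a1, a2⟩ := hT a ha
  obtain ⟨b', b1, b2⟩ := hT b hb
  have := Rch.of_cm a1 b1 (Or.inl ((a2.le_iff b2).2 hab))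
  exact ⟨fun H r k => b2.uniq' k ▸ (H a' a2).trans this,
    fun H r k => a2.uniq' k ▸ (H b' b2).trans this.symm⟩

/-! ### the cells at the level of `E` -/

/-- cells of `z` just above a point of `E` -/
def NY (A : Set P) (z : P → P → ℤ) (E : Set P) : Set (Lv A z) :=
  {q | ∃ x ∈ q.1.1.1, x ∈ E ∧ q.1.2 = z q.1.1.bot x}

/-- cells of `up z E` just below a point of `E` -/
def NX (A : Set P) (z : P → P → ℤ) (E : Set P) : Set (Lv A (up z E)) :=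
  {p | ∃ x ∈ p.1.1.1, x ∈ E ∧ p.1.2 + 1 = up z E p.1.1.bot x}

theorem Mv.z_eq (h : Mv A z E) {c : Ch P} (hc : Dom A c) {x y : P} (hx : x ∈ c.1) (hy : y ∈ c.1)
    (hxE : x ∈ E) (hyE : y ∈ E) : z c.bot x = z c.bot y := by
  have k : ∀ {x y : P}, x ∈ c.1 → y ∈ c.1 → x ∈ E → y ∈ E → x ≤ y → z c.bot x = z c.bot y :=
    fun {x y} hx hy hxE hyE hxy => by
      rw [hz.coc.add' hc c.bot_mem hx hy (Ch.bot_le hx) hxy, h.flat _ _ (hc.dp hx hy hxy) hxE hyE,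
        add_zero]
  exact (c.total hx hy).elim (k hx hy hxE hyE) fun e => (k hy hx hyE hxE e).symm

theorem MR.nb {q : Lv A z} {p : Lv A (up z E)} (h : MR q p) : q ∈ NY A z E ↔ p ∈ NX A z E := by
  simp only [NY, NX, Set.mem_ofPred_eq, h.1, h.2, up_apply]
  refine exists_congr fun x => and_congr_right fun _ => and_congr_right fun hx => ?_
  rw [ind_of_mem hx]; omega

theorem Y_sub_NY {q : Lv A z} (hq : q ∈ CY A z E) : q ∈ NY A z E :=
  ⟨_, q.1.1.bot_mem, hq.1, by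
    obtain ⟨a, ha, k⟩ := q.2.1
    rw [hq.2, hz.coc.self ha (k _ q.1.1.bot_mem)]⟩

theorem X_sub_NX {p : Lv A (up z E)} (hp : p ∈ CX A z E) : p ∈ NX A z E :=
  ⟨_, p.1.1.top_mem, hp.1, hp.2⟩

theorem NY.upper {q q' : Lv A z} (hq : q ∈ NY A z E) (h : q ≤ q') : q' ∈ NY A z E := by
  obtain ⟨x, hx, hE, e⟩ := hq
  obtain ⟨h1, h2⟩ := Lv.le_iff.1 h
  refine ⟨x, h1 hx, hE, ?_⟩
  rw [h2, e, hz.coc.add' q'.2.1 q'.1.1.bot_mem (h1 q.1.1.bot_mem) (h1 hx) (Ch.bot_anti h1)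
    (Ch.bot_le hx), add_comm]

theorem NX.upper {q q' : Lv A (up z E)} (hq : q ∈ NX A z E) (h : q ≤ q') : q' ∈ NX A z E := by
  obtain ⟨x, hx, hE, e⟩ := hq
  obtain ⟨h1, h2⟩ := Lv.le_iff.1 h
  refine ⟨x, h1 hx, hE, ?_⟩
  have hc : Coc A (up z E) := IsCoc.coc
  rw [h2, hc.add' q'.2.1 q'.1.1.bot_mem (h1 q.1.1.bot_mem) (h1 hx) (Ch.bot_anti h1)
    (Ch.bot_le hx), ← e]
  ring

theorem Mv.NY_le (h : Mv A z E) {q q' : Lv A z} (hq : q ∈ NY A z E) (hq' : q' ∈ NY A z E)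
    (hc : q.1.1 ≤ q'.1.1) : q ≤ q' := by
  obtain ⟨r, r1, r2⟩ := Lv.exists_ge h.lo q q'.2.1 hc
  obtain ⟨x, hx, hE, e⟩ := NY.upper hq r2
  obtain ⟨y, hy, hE', e'⟩ := hq'
  rw [r1] at hx e
  rwa [Lv.ext r1 (by rw [e, e', h.z_eq q'.2.1 hx hy hE hE'])] at r2

theorem Mv.NX_le (h : Mv A z E) {q q' : Lv A (up z E)} (hq : q ∈ NX A z E) (hq' : q' ∈ NX A z E)
    (hc : q.1.1 ≤ q'.1.1) : q ≤ q' := by
  obtain ⟨r, r1, r2⟩ := Lv.exists_ge h.hi q q'.2.1 hc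
  obtain ⟨x, hx, hE, e⟩ := NX.upper hq r2
  obtain ⟨y, hy, hE', e'⟩ := hq'
  rw [r1] at hx e
  have := h.z_eq q'.2.1 hx hy hE hE'
  rw [up_apply, ind_of_mem hE] at e
  rw [up_apply, ind_of_mem hE'] at e'
  rwa [Lv.ext r1 (by omega)] at r2

theorem Mv.exists_NY (h : Mv A z E) {c : Ch P} (hc : Dom A c) (h1 : Mt E c) (h2 : c.top ∉ E) :
    ∃ q ∈ NY A z E, q.1.1 = c := by
  obtain ⟨x, hx, hE⟩ := h1
  have := h.lo _ _ (hc.dp c.bot_mem hx (Ch.bot_le hx))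
  have := h.one_le (hc.dp hx c.top_mem (Ch.le_top hx)) hE h2
  have := hz.coc.add' hc c.bot_mem hx c.top_mem (Ch.bot_le hx) (Ch.le_top hx)
  exact ⟨⟨(c, z c.bot x), hc, by simp only; omega, by simp only; omega⟩, ⟨x, hx, hE, rfl⟩, rfl⟩

theorem Mv.exists_NX (h : Mv A z E) {c : Ch P} (hc : Dom A c) (h1 : Mt E c) (h2 : c.bot ∉ E) :
    ∃ q ∈ NX A z E, q.1.1 = c := by
  obtain ⟨x, hx, hE⟩ := h1
  have := h.lo _ _ (hc.dp c.bot_mem hx (Ch.bot_le hx))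
  have := h.hi _ _ (hc.dp hx c.top_mem (Ch.le_top hx))
  have := hz.coc.add' hc c.bot_mem hx c.top_mem (Ch.bot_le hx) (Ch.le_top hx)
  refine ⟨⟨(c, z c.bot x), hc, by simp only; omega, ?_⟩, ⟨x, hx, hE, ?_⟩, rfl⟩ <;>
    simp only [up_apply, ind_of_mem hE, ind_of_not h2] at * <;> omega

theorem Mv.NY_top (h : Mv A z E) {q : Lv A z} (hq : q ∈ NY A z E) : q.1.1.top ∉ E := fun k => by
  obtain ⟨x, hx, hE, e⟩ := hq
  have := h.z_eq q.2.1 hx q.1.1.top_mem hE k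
  have := q.2.2
  omega

theorem Mv.NX_bot (h : Mv A z E) {q : Lv A (up z E)} (hq : q ∈ NX A z E) : q.1.1.bot ∉ E :=
  fun k => by
  obtain ⟨x, hx, hE, e⟩ := hq
  have := h.flat _ _ (q.2.1.dp q.1.1.bot_mem hx (Ch.bot_le hx)) k hE
  have := q.2.2
  rw [up_apply, ind_of_mem hE, ind_of_mem k] at e
  omega

/-- connections between chains lift to the cells at the level of `E` -/
theorem Mv.rch_NY (h : Mv A z E) {S : Set (Ch P)} (hS : ∀ c ∈ S, Mt A c ∧ Mt E c ∧ c.top ∉ E)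
    {q q' : Lv A z} (hq : q ∈ NY A z E) (hq' : q' ∈ NY A z E) (hr : Rch S q.1.1 q'.1.1) :
    Rch {r | r ∈ NY A z E ∧ r.1.1 ∈ S} q q' := by
  refine hr.ind (p := fun t => ∀ r ∈ NY A z E, r.1.1 = t → Rch _ q r) (fun r k e => ?_) ?_ q' hq' rfl
  · rw [le_antisymm (h.NY_le k hq e.le) (h.NY_le hq k e.ge)]; exact Rch.rfl
  · intro a ha b hb hab
    obtain ⟨a', a1, rfl⟩ := h.exists_NY (hS a ha).1.dom (hS a ha).2.1 (hS a ha).2.2
    obtain ⟨b', b1, rfl⟩ := h.exists_NY (hS b hb).1.dom (hS b hb).2.1 (hS b hb).2.2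
    have := Rch.of_cm (E := {r | r ∈ NY A z E ∧ r.1.1 ∈ S}) ⟨a1, ha⟩ ⟨b1, hb⟩
      (Or.inl (h.NY_le a1 b1 hab))
    exact ⟨fun H r k e => le_antisymm (h.NY_le b1 k e.ge) (h.NY_le k b1 e.le) ▸
        (H a' a1 rfl).trans this,
      fun H r k e => le_antisymm (h.NY_le a1 k e.ge) (h.NY_le k a1 e.le) ▸
        (H b' b1 rfl).trans this.symm⟩

theorem Mv.rch_NX (h : Mv A z E) {S : Set (Ch P)} (hS : ∀ c ∈ S, Mt A c ∧ Mt E c ∧ c.bot ∉ E)
    {q q' : Lv A (up z E)} (hq : q ∈ NX A z E) (hq' : q' ∈ NX A z E) (hr : Rch S q.1.1 q'.1.1) :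
    Rch {r | r ∈ NX A z E ∧ r.1.1 ∈ S} q q' := by
  refine hr.ind (p := fun t => ∀ r ∈ NX A z E, r.1.1 = t → Rch _ q r) (fun r k e => ?_) ?_ q' hq' rfl
  · rw [le_antisymm (h.NX_le k hq e.le) (h.NX_le hq k e.ge)]; exact Rch.rfl
  · intro a ha b hb hab
    obtain ⟨a', a1, rfl⟩ := h.exists_NX (hS a ha).1.dom (hS a ha).2.1 (hS a ha).2.2
    obtain ⟨b', b1, rfl⟩ := h.exists_NX (hS b hb).1.dom (hS b hb).2.1 (hS b hb).2.2
    have := Rch.of_cm (E := {r | r ∈ NX A z E ∧ r.1.1 ∈ S}) ⟨a1, ha⟩ ⟨b1, hb⟩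
      (Or.inl (h.NX_le a1 b1 hab))
    exact ⟨fun H r k e => le_antisymm (h.NX_le b1 k e.ge) (h.NX_le k b1 e.le) ▸
        (H a' a1 rfl).trans this,
      fun H r k e => le_antisymm (h.NX_le a1 k e.ge) (h.NX_le k a1 e.le) ▸
        (H b' b1 rfl).trans this.symm⟩

end bas

section fin

variable {P : Type} [PartialOrder P] [Fintype P] {A E : Set P} {z : P → P → ℤ}

theorem chiC_union {C D : Set (Lv A z)} (h : Disjoint C D) : chiC (C ∪ D) = chiC C + chiC D := by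
  rw [chiC, chiC, chiC, ← sum_union (disjoint_filter.2 fun x _ a b => Set.disjoint_left.1 h a b)]
  refine sum_congr ?_ fun _ _ => rfl
  ext x
  simp only [mem_filter, mem_union, Set.mem_union, mem_univ, true_and]

theorem chiC_split (C D : Set (Lv A z)) : chiC C = chiC (C ∩ D) + chiC (C \ D) := by
  rw [← chiC_union Set.disjoint_sdiff_inter.symm, Set.inter_union_sdiff]

theorem chiC_mr {S : Set (Lv A z)} {T : Set (Lv A (up z E))} (hS : ∀ q ∈ S, ∃ p ∈ T, MR q p)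
    (hT : ∀ p ∈ T, ∃ q ∈ S, MR q p) : chiC S = chiC T := by
  choose f f1 f2 using hS
  refine sum_bij (fun q hq => f q (mem_filter.1 hq).2) (fun q hq => mem_filter.2 ⟨mem_univ _, f1 _ _⟩)
    (fun q hq q' hq' e => (f2 q _).uniq' (e ▸ f2 q' _)) (fun p hp => ?_) fun q hq => (f2 q _).sg.symm
  obtain ⟨q, q1, q2⟩ := hT p (mem_filter.1 hp).2
  exact ⟨q, mem_filter.2 ⟨mem_univ _, q1⟩, (f2 q q1).uniq q2⟩

/-- `chi` counts the interior cells -/
theorem chi_eq_chiC (hm : Mono A z) : chi A z = chiC (LA A z) := by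
  rw [chi, chiC, ← sum_fiberwise_of_maps_to (s := univ.filter (· ∈ LA A z))
    (t := univ.filter (Mt A)) (g := fun p => p.1.1) fun p hp =>
      mem_filter.2 ⟨mem_univ _, (mem_filter.1 hp).2⟩]
  refine sum_congr rfl fun c hc => ?_
  have hc := (mem_filter.1 hc).2
  rw [sum_congr rfl (g := fun _ => c.sg) fun p hp => by rw [(mem_filter.1 hp).2], sum_const,
    nsmul_eq_mul, mul_comm]
  congr 1
  have : (((univ.filter (· ∈ LA A z)).filter fun p : Lv A z => p.1.1 = c).card) =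
      (Finset.Ico 0 (z c.bot c.top)).card := by
    refine card_bij (fun p _ => p.1.2) (fun p hp => ?_) (fun p hp q hq e => ?_) fun k hk => ?_
    · rw [← (mem_filter.1 hp).2]; exact mem_Ico.2 p.2.2
    · exact Lv.ext ((mem_filter.1 hp).2.trans (mem_filter.1 hq).2.symm) e
    · exact ⟨⟨(c, k), hc.dom, mem_Ico.1 hk⟩, mem_filter.2 ⟨mem_filter.2 ⟨mem_univ _, hc⟩, rfl⟩, rfl⟩
  rw [this, Int.card_Ico, sub_zero, Int.toNat_of_nonneg (hm _ _ hc.bt)]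

theorem chi_up (h : Mf 3 A) (hE : E ⊆ A) : chi A (up z E) = chi A z - 2 * ee E := by
  rw [up, chi_add, chi_cb_ind h hE]; ring

end fin

end Crest.Agent.X212.Hp13
end
end

-- ▼ part X212/Hp13/Part

/-!
# X212 / Hp13 (helper13): the cocycle carried by a union of components, DROP
-/

set_option autoImplicit false
set_option linter.unusedSectionVars false

open Finset Classical

noncomputable section

namespace Crest.Agent.X212.Hp13

section lr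

variable {P : Type} [PartialOrder P] {A : Set P} {z w : P → P → ℤ} [IsCoc A z] [IsCoc A w]

/-- a partial isomorphism of level sets over the chains -/
structure LR (R : Lv A z → Lv A w → Prop) : Prop where
  ch : ∀ {q p}, R q p → p.1.1 = q.1.1
  le_iff : ∀ {q q' p p'}, R q p → R q' p' → (q ≤ q' ↔ p ≤ p')

namespace LR

variable {R : Lv A z → Lv A w → Prop} (h : LR R)
include h

theorem symm : LR fun p q => R q p :=
  ⟨fun k => (h.ch k).symm, fun k k' => (h.le_iff k k').symm⟩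

theorem uniq {q : Lv A z} {p p' : Lv A w} (k : R q p) (k' : R q p') : p = p' :=
  le_antisymm ((h.le_iff k k').1 le_rfl) ((h.le_iff k' k).1 le_rfl)

theorem la {q : Lv A z} {p : Lv A w} (k : R q p) : q ∈ LA A z ↔ p ∈ LA A w := by
  simp only [LA, Set.mem_ofPred_eq, h.ch k]

theorem cm {q q' : Lv A z} {p p' : Lv A w} (k : R q p) (k' : R q' p') : Cm q q' ↔ Cm p p' :=
  or_congr (h.le_iff k k') (h.le_iff k' k)

theorem rch {S : Set (Lv A z)} {T : Set (Lv A w)} (hS : ∀ q ∈ S, ∃ p ∈ T, R q p)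
    {q q' : Lv A z} {p p' : Lv A w} (k : R q p) (k' : R q' p') (hr : Rch S q q') : Rch T p p' := by
  refine hr.ind (p := fun t => ∀ r, R t r → Rch T p r) (fun r j => h.uniq k j ▸ Rch.rfl) ?_ p' k'
  intro a ha b hb hab
  obtain ⟨a', a1, a2⟩ := hS a ha
  obtain ⟨b', b1, b2⟩ := hS b hb
  have := Rch.of_cm a1 b1 (Or.inl ((h.le_iff a2 b2).1 hab))
  exact ⟨fun H r j => h.uniq b2 j ▸ (H a' a2).trans this,
    fun H r j => h.uniq a2 j ▸ (H b' b2).trans this.symm⟩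

theorem chiC [Fintype P] {S : Set (Lv A z)} {T : Set (Lv A w)} (hS : ∀ q ∈ S, ∃ p ∈ T, R q p)
    (hT : ∀ p ∈ T, ∃ q ∈ S, R q p) : chiC S = chiC T := by
  choose f f1 f2 using hS
  refine sum_bij (fun q hq => f q (mem_filter.1 hq).2) (fun q hq => mem_filter.2 ⟨mem_univ _, f1 _ _⟩)
    (fun q hq q' hq' e => h.symm.uniq (f2 q _) (e ▸ f2 q' _)) (fun p hp => ?_)
    fun q hq => by rw [h.ch (f2 q _)]
  obtain ⟨q, q1, q2⟩ := hT p (mem_filter.1 hp).2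
  exact ⟨q, mem_filter.2 ⟨mem_univ _, q1⟩, h.uniq (f2 q q1) q2⟩

end LR

theorem lr_mr (E : Set P) : LR (MR : Lv A z → Lv A (up z E) → Prop) :=
  ⟨fun k => k.1, fun k k' => k.le_iff k'⟩

/-- first exit of a path from the complement of `X` -/
theorem Rch.exit {S X : Set P} {a b : P} (h : Rch S a b) (ha : a ∉ X) :
    (b ∉ X ∧ Rch (S \ X) a b) ∨ ∃ r ∈ S \ X, Rch (S \ X) a r ∧ ∃ x ∈ S, x ∈ X ∧ Cm r x := by
  induction h with
  | refl => exact Or.inl ⟨ha, Rch.rfl⟩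
  | @tail b c _ k ih =>
    rcases ih with ⟨h1, h2⟩ | ih
    · by_cases hc : c ∈ X
      · exact Or.inr ⟨b, ⟨k.1, h1⟩, h2, c, k.2.1, hc, k.2.2⟩
      · exact Or.inl ⟨hc, h2.trans (Rch.of_cm ⟨k.1, h1⟩ ⟨k.2.1, hc⟩ k.2.2)⟩
    · exact Or.inr ih

end lr

section cnt

variable {P : Type} [PartialOrder P] {A : Set P} {z : P → P → ℤ}

/-- the levels of `T` on the chain `c` -/
def lev (T : Set (Lv A z)) (c : Ch P) (k : ℤ) : Prop := ∃ q ∈ T, q.1.1 = c ∧ q.1.2 = k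

/-- the number of levels of `T` on `c` in `[a, b)` -/
def nlev (T : Set (Lv A z)) (c : Ch P) (a b : ℤ) : ℤ := ((Ico a b).filter (lev T c)).card

/-- the cocycle carried by `T` -/
def cnt (T : Set (Lv A z)) : P → P → ℤ := fun x y =>
  if h : x ≤ y then nlev T (Ch.pr x y h) 0 (z x y) else 0

/-- a union of components of the whole level set -/
def Sat (T : Set (Lv A z)) : Prop := ∀ p q, Lv.le p q → (p ∈ T ↔ q ∈ T)

variable {T : Set (Lv A z)}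

theorem Sat.compl (h : Sat T) : Sat Tᶜ := fun p q k => not_congr (h p q k)

theorem lev_self {q : Lv A z} : lev T q.1.1 q.1.2 ↔ q ∈ T :=
  ⟨fun ⟨_, h, e1, e2⟩ => Lv.ext e1 e2 ▸ h, fun h => ⟨q, h, rfl, rfl⟩⟩

theorem nlev_nonneg (c : Ch P) (a b : ℤ) : 0 ≤ nlev T c a b := Int.natCast_nonneg _

theorem nlev_add (c : Ch P) {a b d : ℤ} (h1 : a ≤ b) (h2 : b ≤ d) :
    nlev T c a d = nlev T c a b + nlev T c b d := by
  rw [nlev, nlev, nlev, ← Ico_union_Ico_eq_Ico h1 h2, filter_union,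
    card_union_of_disjoint (disjoint_filter_filter (Ico_disjoint_Ico_consecutive a b d))]
  push_cast; rfl

theorem nlev_lt (c : Ch P) {a k b : ℤ} (h1 : a ≤ k) (h2 : k < b) (h : lev T c k) :
    nlev T c a k < nlev T c a b := by
  rw [nlev_add c h1 h2.le]
  have : 0 < ((Ico k b).filter (lev T c)).card :=
    card_pos.2 ⟨k, mem_filter.2 ⟨mem_Ico.2 ⟨le_rfl, h2⟩, h⟩⟩
  have : 0 < nlev T c k b := by rw [nlev]; exact_mod_cast this
  omega

theorem exists_nlev (c : Ch P) {a b j : ℤ} (h1 : 0 ≤ j) (h2 : j < nlev T c a b) :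
    ∃ k, a ≤ k ∧ k < b ∧ lev T c k ∧ nlev T c a k = j := by
  have key := surj_on_of_inj_on_of_card_le (s := (Ico a b).filter (lev T c))
    (t := Ico 0 (nlev T c a b)) (fun k _ => nlev T c a k) (fun k hk => ?_) (fun k k' hk hk' e => ?_)
    (by rw [Int.card_Ico, sub_zero, nlev, Int.toNat_natCast]) j (mem_Ico.2 ⟨h1, h2⟩)
  · obtain ⟨k, hk, e⟩ := key
    obtain ⟨k1, k2⟩ := mem_filter.1 hk
    exact ⟨k, (mem_Ico.1 k1).1, (mem_Ico.1 k1).2, k2, e.symm⟩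
  · obtain ⟨k1, k2⟩ := mem_filter.1 hk
    exact mem_Ico.2 ⟨nlev_nonneg _ _ _, nlev_lt c (mem_Ico.1 k1).1 (mem_Ico.1 k1).2 k2⟩
  · obtain ⟨k1, k2⟩ := mem_filter.1 hk
    obtain ⟨k3, k4⟩ := mem_filter.1 hk'
    rcases lt_trichotomy k k' with l | l | l
    · exact absurd e (nlev_lt c (mem_Ico.1 k1).1 l k2).ne
    · exact l
    · exact absurd e (nlev_lt c (mem_Ico.1 k3).1 l k4).ne'

theorem cnt_nonneg (x y : P) : 0 ≤ cnt T x y := by
  unfold cnt; split_ifs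
  exacts [nlev_nonneg _ _ _, le_rfl]

theorem mono_cnt : Mono A (cnt T) := fun x y _ => cnt_nonneg x y

theorem cnt_add_compl (hm : Mono A z) : EqD A z (cnt T + cnt Tᶜ) := fun x y hp => by
  have := hm x y hp
  simp only [Pi.add_apply, cnt, dif_pos hp.1, nlev]
  rw [filter_congr (p := lev Tᶜ _) (q := fun k => ¬ lev T (Ch.pr x y hp.1) k) fun k hk => ?_,
    ← Nat.cast_add, card_filter_add_card_filter_not, Int.card_Ico, sub_zero, Int.toNat_of_nonneg this]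
  let q : Lv A z := ⟨(Ch.pr x y hp.1, k), (dom_pr hp.1).2 hp, by simpa using mem_Ico.1 hk⟩
  exact (lev_self (q := q)).trans (not_congr (lev_self (T := T) (q := q))).symm

theorem cnt_le (hm : Mono A z) {x y : P} (hp : Dp A x y) : cnt T x y ≤ z x y := by
  have := cnt_add_compl (T := T) hm x y hp
  have := cnt_nonneg (T := Tᶜ) x y
  simp only [Pi.add_apply] at *
  omega

variable [hz : IsCoc A z]

theorem Sat.shift (h : Sat T) (hm : Mono A z) {c d : Ch P} (hd : Dom A d) (hc : c ≤ d) {a b : ℤ}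
    (ha : 0 ≤ a) (hb : b ≤ z c.bot c.top) :
    nlev T c a b = nlev T d (a + z d.bot c.bot) (b + z d.bot c.bot) := by
  rw [nlev, nlev]
  congr 1
  have key : ∀ k, a ≤ k → k < b → (lev T c k ↔ lev T d (k + z d.bot c.bot)) := fun k h1 h2 => by
    let q : Lv A z := ⟨(c, k), hd.mono hc, ha.trans h1, h2.trans_le hb⟩
    obtain ⟨r, r1, r2⟩ := Lv.exists_ge hm q hd hc
    have e := (Lv.le_iff.1 r2).2
    rw [r1] at e
    exact ((lev_self (q := q)).trans (h q r r2)).trans (by rw [← lev_self, r1, e])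
  refine card_bij (fun k _ => k + z d.bot c.bot) (fun k hk => ?_) (fun k _ k' _ e => by omega)
    fun k hk => ?_
  · obtain ⟨k1, k2⟩ := mem_filter.1 hk
    rw [mem_Ico] at k1
    exact mem_filter.2 ⟨mem_Ico.2 ⟨by omega, by omega⟩, (key k k1.1 k1.2).1 k2⟩
  · obtain ⟨k1, k2⟩ := mem_filter.1 hk
    rw [mem_Ico] at k1
    refine ⟨k - z d.bot c.bot, mem_filter.2 ⟨mem_Ico.2 ⟨by omega, by omega⟩,
      (key _ (by omega) (by omega)).2 (by rwa [sub_add_cancel])⟩, sub_add_cancel _ _⟩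

theorem Sat.cnt_eq (h : Sat T) (hm : Mono A z) {c : Ch P} (hc : Dom A c) {x y : P} (hx : x ∈ c.1)
    (hy : y ∈ c.1) (hxy : x ≤ y) : cnt T x y = nlev T c (z c.bot x) (z c.bot y) := by
  have : Ch.pr x y hxy ≤ c := by
    intro t ht
    simp only [Ch.pr_val, mem_insert, mem_singleton] at ht
    rcases ht with rfl | rfl <;> assumption
  rw [cnt, dif_pos hxy, h.shift hm hc this le_rfl (by simp),
    hz.coc.add' hc c.bot_mem hx hy (Ch.bot_le hx) hxy]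
  simp [add_comm]

theorem dom_zero {c : Ch P} (hc : Dom A c) {x : P} (hx : x ∈ c.1) : z x x = 0 :=
  let ⟨_, ha, h⟩ := hc; hz.coc.self ha (h x hx)

theorem Sat.coc (h : Sat T) (hm : Mono A z) : Coc A (cnt T) := by
  intro a ha x y u h1 h2 c1 c2 c3
  let c : Ch P := (Ch.pr y u h2).ins x fun t ht => by
    simp only [Ch.pr_val, mem_insert, mem_singleton] at ht
    rcases ht with rfl | rfl
    exacts [Or.inl h1, Or.inl (h1.trans h2)]
  have hc : Dom A c := ⟨a, ha, fun t ht => by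
    simp only [c, Ch.ins_val, Ch.pr_val, mem_insert, mem_singleton] at ht
    rcases ht with rfl | rfl | rfl <;> assumption⟩
  have hx : x ∈ c.1 := by simp [c]
  have hy : y ∈ c.1 := by simp [c]
  have hu : u ∈ c.1 := by simp [c]
  have e1 := hz.coc.add' hc c.bot_mem hx hy (Ch.bot_le hx) h1
  have e2 := hz.coc.add' hc c.bot_mem hy hu (Ch.bot_le hy) h2
  have m1 := hm _ _ (hc.dp hx hy h1)
  have m2 := hm _ _ (hc.dp hy hu h2)
  rw [h.cnt_eq hm hc hx hu (h1.trans h2), h.cnt_eq hm hc hx hy h1, h.cnt_eq hm hc hy hu h2,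
    nlev_add c (b := z c.bot y) (by omega) (by omega)]

theorem Sat.cnt_bt (h : Sat T) (hm : Mono A z) {c : Ch P} (hc : Dom A c) :
    cnt T c.bot c.top = nlev T c 0 (z c.bot c.top) := by
  rw [h.cnt_eq hm hc c.bot_mem c.top_mem c.bot_le_top, dom_zero (z := z) hc c.bot_mem]

/-- the cells of `cnt T` are the cells of `T` -/
def PR (T : Set (Lv A z)) (q : Lv A z) (p : Lv A (cnt T)) : Prop :=
  q ∈ T ∧ p.1.1 = q.1.1 ∧ p.1.2 = nlev T q.1.1 0 q.1.2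

theorem Sat.exists_pr (h : Sat T) (hm : Mono A z) {q : Lv A z} (hq : q ∈ T) : ∃ p, PR T q p :=
  ⟨⟨(q.1.1, nlev T q.1.1 0 q.1.2), q.2.1, nlev_nonneg _ _ _, by
    simp only [h.cnt_bt hm q.2.1]
    exact nlev_lt _ q.2.2.1 q.2.2.2 (lev_self.2 hq)⟩, hq, rfl, rfl⟩

theorem Sat.exists_pr' (h : Sat T) (hm : Mono A z) (p : Lv A (cnt T)) : ∃ q, PR T q p := by
  obtain ⟨k, -, -, ⟨q, q1, q2, rfl⟩, e⟩ :=
    exists_nlev p.1.1 p.2.2.1 (h.cnt_bt hm p.2.1 ▸ p.2.2.2)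
  exact ⟨q, q1, q2.symm, by rw [q2, e]⟩

theorem Sat.lr (h : Sat T) (hm : Mono A z) [IsCoc A (cnt T)] : LR (PR T) := by
  have fw : ∀ {q q' p p'}, PR T q p → PR T q' p' → q ≤ q' → p ≤ p' := by
    rintro q q' p p' ⟨-, a1, a2⟩ ⟨-, b1, b2⟩ k
    obtain ⟨k1, k2⟩ := Lv.le_iff.1 k
    have b := k1 q.1.1.bot_mem
    have m := hm _ _ (q'.2.1.dp q'.1.1.bot_mem b (Ch.bot_le b))
    refine Lv.le_iff.2 ⟨by rwa [a1, b1], ?_⟩
    have := q.2.2.1
    rw [a1, b1, a2, b2, k2, h.shift hm q'.2.1 k1 le_rfl q.2.2.2.le,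
      h.cnt_eq hm q'.2.1 q'.1.1.bot_mem b (Ch.bot_le b), dom_zero (z := z) q'.2.1 q'.1.1.bot_mem, zero_add,
      nlev_add q'.1.1 (b := z q'.1.1.bot q.1.1.bot) m (by omega), add_comm]
  refine ⟨fun k => k.2.1, fun {q q' p p'} a b => ⟨fw a b, fun k => ?_⟩⟩
  obtain ⟨r, r1, r2⟩ := Lv.exists_ge hm q q'.2.1 (a.2.1 ▸ b.2.1 ▸ Lv.ch_le k)
  have rT := (h q r r2).1 a.1
  obtain ⟨s, hs⟩ := h.exists_pr hm rT
  have e1 := (Lv.le_iff.1 (fw a hs r2)).2
  have e2 := (Lv.le_iff.1 k).2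
  rw [hs.2.1, r1, hs.2.2, r1] at e1
  rw [b.2.1, b.2.2, ← e1] at e2
  refine (Lv.ext r1 ?_ : r = q') ▸ r2
  rcases lt_trichotomy r.1.2 q'.1.2 with l | l | l
  · exact absurd e2 (nlev_lt _ r.2.2.1 l (r1 ▸ lev_self.2 rT)).ne'
  · exact l
  · exact absurd e2 (nlev_lt _ q'.2.2.1 l (lev_self.2 b.1)).ne

/-- the down closure -/
def dn (C : Set (Lv A z)) : Set (Lv A z) := {q | ∃ p ∈ C, Lv.le q p}

theorem part_eq (C : Set (Lv A z)) : EqD A (part A z C) (cnt (dn C)) := fun x y hp => by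
  rw [part, cnt, dif_pos hp.1, nlev]
  congr 2
  ext k
  simp only [mem_filter]
  exact and_congr_right fun _ => ⟨fun ⟨q, h1, h2, h3⟩ => ⟨q, h3, Ch.ext h1, h2⟩,
    fun ⟨q, h3, h1, h2⟩ => ⟨q, by rw [h1]; rfl, h2, h3⟩⟩

theorem Lv.exists_la (hm : Mono A z) (q : Lv A z) : ∃ p ∈ LA A z, q ≤ p := by
  obtain ⟨d, h1, h2⟩ := dom_iff.1 q.2.1
  obtain ⟨p, p1, p2⟩ := Lv.exists_ge hm q h2.dom h1
  exact ⟨p, show Mt A p.1.1 from p1 ▸ h2, p2⟩

theorem sat_dn (hm : Mono A z) {C : Set (Lv A z)}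
    (h : ∀ p ∈ C, ∀ q ≤ p, ∀ p' ∈ LA A z, q ≤ p' → p' ∈ C) : Sat (dn C) := fun p q k =>
  ⟨fun ⟨r, r1, r2⟩ => let ⟨s, s1, s2⟩ := Lv.exists_la hm q
      ⟨s, h r r1 p r2 s s1 (le_trans (a := p) k s2), s2⟩,
    fun ⟨r, r1, r2⟩ => ⟨r, r1, le_trans (a := p) k r2⟩⟩

/-- the interior cofaces of a cell are connected -/
theorem Nice.rch [Fintype P] (hN : Nice A) (hm : Mono A z) {q p p' : Lv A z} (hp : p ∈ LA A z)
    (hp' : p' ∈ LA A z) (h : q ≤ p) (h' : q ≤ p') : Rch (LA A z) p p' := by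
  by_cases hq : q ∈ LA A z
  · exact (Rch.of_cm hp hq (Or.inr h)).trans (Rch.of_cm hq hp' (Or.inl h'))
  have join : ∀ {r s : Lv A z}, r ∈ LA A z → q ≤ r → q ≤ s → r.1.1 ≤ s.1.1 → Rch (LA A z) r s :=
    fun {r s} hr a b k => by
      obtain ⟨t, t1, t2⟩ := Lv.exists_ge hm r s.2.1 k
      have e1 := (Lv.le_iff.1 (a.trans t2)).2
      rw [t1, ← (Lv.le_iff.1 b).2] at e1
      exact Rch.of_cm hr (Mt.mono hr k) (Or.inl (Lv.ext t1 e1 ▸ t2))
  have ex : ∀ {a : P}, a ∈ A → ∀ k : ∀ x ∈ q.1.1.1, Cm a x, ∃ r ∈ LA A z, q ≤ r ∧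
      r.1.1 = q.1.1.ins a k := fun {a} ha k => by
    have m : Mt A (q.1.1.ins a k) := ⟨a, mem_insert_self _ _, ha⟩
    obtain ⟨r, r1, r2⟩ := Lv.exists_ge hm q m.dom (q.1.1.le_ins a k)
    exact ⟨r, show Mt A r.1.1 from r1 ▸ m, r2, r1⟩
  have key : ∀ {a : P}, a ∈ A → (∀ x ∈ q.1.1.1, Cm a x) → ∀ {r s : Lv A z}, q ≤ r → q ≤ s →
      a ∈ r.1.1.1 → a ∈ s.1.1.1 → Rch (LA A z) r s := fun {a} ha k r s h1 h2 h3 h4 => by
    obtain ⟨t, t1, t2, t3⟩ := ex ha k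
    exact (join t1 t2 h1 (t3 ▸ insert_subset h3 (Lv.ch_le h1))).symm.trans
      (join t1 t2 h2 (t3 ▸ insert_subset h4 (Lv.ch_le h2)))
  obtain ⟨a, a1, a2⟩ := hp
  obtain ⟨b, b1, b2⟩ := hp'
  refine ((hN q.1.1 q.2.1 hq).conn a ⟨a2, fun x hx => p.1.1.cm a1 (Lv.ch_le h hx)⟩ b
    ⟨b2, fun x hx => p'.1.1.cm b1 (Lv.ch_le h' hx)⟩).ind
    (p := fun t => ∀ s, q ≤ s → t ∈ s.1.1.1 → Rch (LA A z) p s)
    (fun s k1 k2 => key a2 (fun x hx => p.1.1.cm a1 (Lv.ch_le h hx)) h k1 a1 k2) ?_ p' h' b1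
  intro u hu v hv huv
  let c := (q.1.1.ins u hu.2).ins v fun x hx =>
    (mem_insert.1 hx).elim (fun e => e ▸ Or.inr huv) (hv.2 x)
  have m : Mt A c := ⟨v, mem_insert_self _ _, hv.1⟩
  obtain ⟨r, r1, r2⟩ := Lv.exists_ge hm q m.dom ((q.1.1.le_ins _ _).trans (Ch.le_ins _ _ _))
  have ru : u ∈ r.1.1.1 := r1 ▸ mem_insert_of_mem (mem_insert_self _ _)
  have rv : v ∈ r.1.1.1 := r1 ▸ mem_insert_self _ _
  exact ⟨fun H s k1 k2 => (H r r2 ru).trans (key hv.1 hv.2 r2 k1 rv k2),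
    fun H s k1 k2 => (H r r2 rv).trans (key hu.1 hu.2 r2 k1 ru k2)⟩

/-- a union of components of the interior is saturated after closing it -/
theorem Nice.sat [Fintype P] (hN : Nice A) (hm : Mono A z) {C : Set (Lv A z)} (hC : C ⊆ LA A z)
    (h : ∀ p ∈ C, ∀ q ∈ LA A z, Cm p q → q ∈ C) : Sat (dn C) :=
  sat_dn hm fun p hp _ h1 _ hp' h2 => (Rch.in_clopen h hp (hN.rch hm (hC hp) hp' h1 h2)).mem hp

theorem mem_dn {C : Set (Lv A z)} (h : ∀ p ∈ C, ∀ q ∈ LA A z, Cm p q → q ∈ C) {q : Lv A z}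
    (hq : q ∈ LA A z) : q ∈ dn C ↔ q ∈ C :=
  ⟨fun ⟨p, hp, k⟩ => h p hp q hq (Or.inr k), fun k => ⟨q, k, Or.inl rfl⟩⟩

/-- a union of closed components is saturated -/
theorem sat_closed {C : Set (Lv A z)} (hC : C ⊆ LA A z)
    (h : ∀ p ∈ C, ∀ q ∈ LA A z, Cm p q → q ∈ C) (hT : ¬ Tch A z C) : Sat C := fun p q k =>
  ⟨fun hp => h p hp q (LA.upper (hC hp) k) (Or.inl k),
    fun hq => h q hq p (by_contra fun hp => hT ⟨q, hq, p, hp, k⟩) (Or.inr k)⟩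

theorem cl0_cnt (hC : T ⊆ LA A z) : Cl0 A (cnt T) := fun x y hp hx hy => by
  rw [cnt, dif_pos hp.1, nlev, filter_false_of_mem, card_empty, Nat.cast_zero]
  rintro k - ⟨q, q1, q2, -⟩
  obtain ⟨a, a1, a2⟩ := hC q1
  rw [q2] at a1
  simp only [Ch.pr_val, mem_insert, mem_singleton] at a1
  rcases a1 with rfl | rfl
  exacts [hx a2, hy a2]

/-- the closed components -/
def Cls (A : Set P) (z : P → P → ℤ) [IsCoc A z] : Set (Lv A z) :=
  {p | p ∈ LA A z ∧ ¬ Tch A z (cmp (LA A z) p)}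

theorem Cls.clopen {p q : Lv A z} (hp : p ∈ Cls A z) (hq : Rch (LA A z) p q) : q ∈ Cls A z :=
  ⟨hq.mem hp.1, cmp_eq hq ▸ hp.2⟩

theorem sat_cls : Sat (Cls A z) :=
  sat_closed (fun _ h => h.1) (fun _ hp _ hq k => Cls.clopen hp (Rch.of_cm hp.1 hq k))
    fun ⟨p, hp, k⟩ => hp.2 ⟨p, mem_cmp_self hp.1, k⟩

theorem noCl_iff : NoCl A z ↔ Cls A z = ∅ :=
  ⟨fun h => Set.eq_empty_of_forall_notMem fun _ hp => hp.2 (h _ (isCmp_cmp hp.1)),
    fun h _ ⟨p, hp, e⟩ => by_contra fun k => (h ▸ ⟨hp, e ▸ k⟩ : p ∈ (∅ : Set (Lv A z)))⟩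

theorem Sat.rch (h : Sat T) {p q : Lv A z} {S : Set (Lv A z)} (hp : p ∈ T) (k : Rch S p q) :
    Rch (S ∩ T) p q := by
  have : q ∈ T ∧ Rch (S ∩ T) p q := k.ind (p := fun t => t ∈ T ∧ Rch (S ∩ T) p t) ⟨hp, Rch.rfl⟩
    fun a ha b hb hab => ⟨fun H => ⟨(h a b hab).1 H.1,
      H.2.trans (Rch.of_cm ⟨ha, H.1⟩ ⟨hb, (h a b hab).1 H.1⟩ (Or.inl hab))⟩,
      fun H => ⟨(h a b hab).2 H.1,
        H.2.trans (Rch.of_cm ⟨hb, H.1⟩ ⟨ha, (h a b hab).2 H.1⟩ (Or.inr hab))⟩⟩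
  exact this.2

theorem Sat.rch_iff (h : Sat T) (hm : Mono A z) [IsCoc A (cnt T)] {q q' : Lv A z}
    {p p' : Lv A (cnt T)} (k : PR T q p) (k' : PR T q' p') :
    Rch (LA A z) q q' ↔ Rch (LA A (cnt T)) p p' :=
  ⟨fun H => (h.lr hm).rch (fun a ha => let ⟨b, hb⟩ := h.exists_pr hm ha.2
      ⟨b, ((h.lr hm).la hb).1 ha.1, hb⟩) k k' (h.rch k.1 H),
    fun H => (h.lr hm).symm.rch (fun a ha => let ⟨b, hb⟩ := h.exists_pr' hm a
      ⟨b, ((h.lr hm).la hb).2 ha, hb⟩) k k' H⟩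

theorem Sat.cls_iff (h : Sat T) (hm : Mono A z) [IsCoc A (cnt T)] {q : Lv A z}
    {p : Lv A (cnt T)} (k : PR T q p) : q ∈ Cls A z ↔ p ∈ Cls A (cnt T) := by
  have l := h.lr hm
  refine and_congr (l.la k) (not_congr ⟨?_, ?_⟩)
  · rintro ⟨a, ⟨a1, a2⟩, b, b1, b2⟩
    have aT := ((h.rch k.1 a2).mono Set.inter_subset_right).mem k.1
    obtain ⟨a', ha⟩ := h.exists_pr hm aT
    obtain ⟨b', hb⟩ := h.exists_pr hm ((h b a b2).2 aT)
    exact ⟨a', ⟨(l.la ha).1 a1, (h.rch_iff hm k ha).1 a2⟩, b', fun j => b1 ((l.la hb).2 j),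
      (l.le_iff hb ha).1 b2⟩
  · rintro ⟨a, ⟨a1, a2⟩, b, b1, b2⟩
    obtain ⟨a', ha⟩ := h.exists_pr' hm a
    obtain ⟨b', hb⟩ := h.exists_pr' hm b
    exact ⟨a', ⟨(l.la ha).2 a1, (h.rch_iff hm k ha).2 a2⟩, b', fun j => b1 ((l.la hb).1 j),
      (l.le_iff hb ha).2 b2⟩

theorem Sat.sf (h : Sat T) (hm : Mono A z) (hT : ∀ q ∈ T, q ∉ Cls A z) : Sf A (cnt T) := by
  haveI : IsCoc A (cnt T) := ⟨h.coc hm⟩
  refine ⟨mono_cnt, this, noCl_iff.2 (Set.eq_empty_of_forall_notMem fun p hp => ?_)⟩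
  obtain ⟨q, hq⟩ := h.exists_pr' hm p
  exact hT q hq.1 ((h.cls_iff hm hq).2 hp)

variable [Fintype P]

theorem Sat.chi (h : Sat T) (hm : Mono A z) : chi A (cnt T) = chiC (LA A z ∩ T) := by
  haveI : IsCoc A (cnt T) := ⟨h.coc hm⟩
  rw [chi_eq_chiC mono_cnt]
  symm
  exact (h.lr hm).chiC (fun a ha => let ⟨b, hb⟩ := h.exists_pr hm ha.2
      ⟨b, ((h.lr hm).la hb).1 ha.1, hb⟩) fun a ha => let ⟨b, hb⟩ := h.exists_pr' hm a
      ⟨b, ⟨((h.lr hm).la hb).2 ha, hb.1⟩, hb⟩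

theorem Sat.eqv (hb : Bnd ℤ A) (h : Sat T) (hm : Mono A z) (hT : T ⊆ LA A z) :
    Eqv A z (cnt Tᶜ) :=
  hb.eqv hz.coc (h.compl.coc hm) fun x y hp hx hy => by
    rw [cnt_add_compl (T := T) hm x y hp, Pi.add_apply, Pi.add_apply, cl0_cnt hT x y hp hx hy,
      zero_add]

/-- **DROP**: remove all closed components -/
theorem drop (hb : Bnd ℤ A) (hm : Mono A z) :
    Sf A (cnt (Cls A z)ᶜ) ∧ Eqv A z (cnt (Cls A z)ᶜ) ∧
      chi A (cnt (Cls A z)ᶜ) = chi A z - chiC (Cls A z) ∧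
      ∀ x y, Dp A x y → cnt (Cls A z)ᶜ x y ≤ z x y := by
  refine ⟨sat_cls.compl.sf hm fun _ h => h, sat_cls.eqv hb hm fun _ h => h.1, ?_,
    fun _ _ => cnt_le hm⟩
  rw [sat_cls.compl.chi hm, chi_eq_chiC hm, chiC_split (LA A z) (Cls A z),
    Set.inter_eq_right.2 (show Cls A z ⊆ LA A z from fun _ h => h.1), Set.sdiff_eq]
  ring

end cnt

end Crest.Agent.X212.Hp13
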