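import Crest.Agent.X212.Psc68.Main
import Crest.Agent.X212.Rad94.AbS
import Crest.Agent.X212.Rad94.Bar
import Crest.Agent.X212.Rad94.AbL
import Crest.Agent.X212.Rad94.Scal
import Crest.Agent.X212.Rad94.AbM
import Crest.Agent.X212.Mcg32.EndC
import Crest.Agent.X212.Hp13.Cr0
import Crest.Agent.X212.Hp13.Crit
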