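import Crest.Agent.X212.Hp13.Thk
import Crest.Agent.X212.Sf30.Du
import Crest.Agent.X212.Alg36.Inc3
import Crest.Agent.X212.Sf30.P2Bas
import Crest.Agent.X212.Hlf24.Bdy

-- ▼ part X212/Hp13/Srg
section

/-!
# X212 / Hp13 (helper13): surgery of a disc and of a sphere
-/

set_option autoImplicit false
set_option linter.unusedSectionVars false

open Finset Classical

noncomputable section

namespace Crest.Agent.X212.Hp13

variable {P : Type} [PartialOrder P] [Fintype P] {A E Q : Set P} {z w : P → P → ℤ}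

/-- a disc -/
structure Dsc (A : Set P) (z : P → P → ℤ) [IsCoc A z] : Prop where
  mono : Mono A z
  nc : NoCl A z
  conn : Conn (LA A z)
  chi : chi A z = 1

/-- a sphere -/
structure Sph (A : Set P) (z : P → P → ℤ) [IsCoc A z] : Prop where
  mono : Mono A z
  cl : ∀ p : Lv A z, p ∈ LA A z
  conn : Conn (LA A z)
  chi : chi A z = 2

variable [IsCoc A z] [IsCoc A w]

theorem Dsc.sf (h : Dsc A z) : Sf A z := ⟨h.mono, _, h.nc⟩

theorem ne_of_chi (hm : Mono A z) (h : chi A z ≠ 0) : (LA A z).Nonempty := by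
  by_contra k
  rw [Set.not_nonempty_iff_eq_empty] at k
  exact h (by rw [chi_eq_chiC hm, k, chiC_empty])

theorem Conn.cmp_eq {S : Set P} (h : Conn S) {p : P} (hp : p ∈ S) : cmp S p = S :=
  Set.ext fun q => ⟨fun k => k.1, fun k => ⟨k, h p hp q k⟩⟩

theorem eu_LA (hM : Mf 3 A) (hm : Mono A z) : eu (LA A z) = chi A z := by
  rw [chi_eq_chiC hm, Sf30.chiC_eq_eu hM hm subset_rfl Sf30.la_upper]

/-- the boundary of a disc is connected -/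
theorem conn_LB (hM : Mf 3 A) (hm : Mono A z) (hc : Conn (LA A z)) (h1 : 1 ≤ chi A z) :
    Conn (LB A z) := by
  have k := Sf30.conn_mix2 (Sf30.mf_LA hM hm) hc (by rwa [eu_LA hM hm])
  have t : ∀ c ∈ Alg36.mix (LA A z), c.top ∈ LB A z := fun c ⟨⟨a, a1, a2⟩, b, b1, b2⟩ =>
    ⟨LA.upper a2 (Ch.le_top a1), b, b2, Ch.le_top b1⟩
  have m : ∀ p ∈ LB A z, ∃ c ∈ Alg36.mix (LA A z), c.top = p := fun p ⟨h1, q, h2, h3⟩ =>
    ⟨Ch.pr q p h3, ⟨⟨p, by simp, h1⟩, q, by simp, h2⟩, Ch.top_pr _ _ _⟩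
  intro p hp q hq
  obtain ⟨c, c1, rfl⟩ := m p hp
  obtain ⟨d, d1, rfl⟩ := m q hq
  exact (k c c1 d d1).map fun a ha b hb l => Rch.of_cm (t a ha) (t b hb) (Or.inl (Ch.top_mono l))

theorem Dsc.conn_LB (h : Dsc A z) (hM : Mf 3 A) : Conn (LB A z) :=
  Hp13.conn_LB hM h.mono h.conn h.chi.ge

theorem Dsc.ne (h : Dsc A z) : (LA A z).Nonempty := ne_of_chi h.mono (by rw [h.chi]; norm_num)

theorem Dsc.isDisc (h : Dsc A z) : IsDisc A z (LA A z) := by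
  obtain ⟨p, hp⟩ := h.ne
  have k : IsCmp (LA A z) (LA A z) := ⟨p, hp, (h.conn.cmp_eq hp).symm⟩
  exact ⟨k, h.nc _ k, by rw [← chi_eq_chiC h.mono, h.chi]⟩

theorem Dsc.lb_ne (h : Dsc A z) : (LB A z).Nonempty :=
  let ⟨p, hp, k⟩ := h.isDisc.2.1; ⟨p, hp, k⟩

/-- a surface with connected boundary -/
theorem dsc_of (hM : Mf 3 A) (hz : Sf A z) (hb : ∀ p ∈ LB A z, ∀ q ∈ LB A z, Rch (LA A z) p q)
    (h1 : 1 ≤ chi A z) : Dsc A z := by
  have hc : Conn (LA A z) := fun p hp q hq => by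
    obtain ⟨a, a1, a2⟩ := hz.noCl _ (isCmp_cmp hp)
    obtain ⟨b, b1, b2⟩ := hz.noCl _ (isCmp_cmp hq)
    exact (a1.2.trans (hb a ⟨a1.1, a2⟩ b ⟨b1.1, b2⟩)).trans b1.2.symm
  refine ⟨hz.mono, hz.noCl, hc, le_antisymm ?_ h1⟩
  obtain ⟨p, hp⟩ := ne_of_chi hz.mono (show chi A z ≠ 0 by omega)
  have k : IsCmp (LA A z) (LA A z) := ⟨p, hp, (hc.cmp_eq hp).symm⟩
  rw [chi_eq_chiC hz.mono]
  exact cmp_le_one hM hz.mono k (hz.noCl _ k)

theorem Sat.lb {T : Set (Lv A z)} (h : Sat T) (hm : Mono A z) [IsCoc A (cnt T)] {q : Lv A z}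
    {p : Lv A (cnt T)} (k : PR T q p) : q ∈ LB A z ↔ p ∈ LB A (cnt T) := by
  have l := h.lr hm
  refine and_congr (l.la k) ⟨fun ⟨a, a1, a2⟩ => ?_, fun ⟨a, a1, a2⟩ => ?_⟩
  · obtain ⟨b, hb⟩ := h.exists_pr hm ((h a q a2).2 k.1)
    exact ⟨b, fun j => a1 ((l.la hb).2 j), (l.le_iff hb k).1 a2⟩
  · obtain ⟨b, hb⟩ := h.exists_pr' hm a
    exact ⟨b, fun j => a1 ((l.la hb).1 j), (l.le_iff hb k).2 a2⟩

/-- the part without the closed components -/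
theorem drop0 (hm : Mono A z) :
    Sf A (cnt (Cls A z)ᶜ) ∧ chi A (cnt (Cls A z)ᶜ) = chi A z - chiC (Cls A z) := by
  refine ⟨sat_cls.compl.sf hm fun _ h => h, ?_⟩
  rw [sat_cls.compl.chi hm, chi_eq_chiC hm, chiC_split (LA A z) (Cls A z),
    Set.inter_eq_right.2 (show Cls A z ⊆ LA A z from fun _ h => h.1), Set.sdiff_eq]
  ring

/-- a closed component as a surface -/
theorem sph_cnt {T : Set (Lv A z)} (h : Sat T) (hm : Mono A z) [IsCoc A (cnt T)]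
    (hT : T ⊆ LA A z) (hc : Conn T) (h2 : chiC T = 2) : Sph A (cnt T) := by
  refine ⟨mono_cnt, fun p => ?_, fun p _ q _ => ?_, ?_⟩
  · obtain ⟨b, hb⟩ := h.exists_pr' hm p
    exact ((h.lr hm).la hb).1 (hT hb.1)
  · obtain ⟨a, ha⟩ := h.exists_pr' hm p
    obtain ⟨b, hb⟩ := h.exists_pr' hm q
    exact (h.rch_iff hm ha hb).1 ((hc a ha.1 b hb.1).mono hT)
  · rw [h.chi hm, Set.inter_eq_right.2 hT, h2]

namespace Sg

variable {R : Lv A w → Lv A z → Prop} {X : Set (Lv A w)} {Y N : Set (Lv A z)}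
  {J : Lv A z → Lv A z → Prop} (h : Sg R X Y N J)
include h

theorem lb_notY {b : Lv A z} (hb : b ∈ LB A z) : b ∉ Y := fun k =>
  let ⟨_, a1, a2⟩ := hb.2; a1 (h.nla (h.yn (h.ylow a2 k)))

theorem rch_lb (hc : Conn (LB A w)) {p q : Lv A z} (hp : p ∈ LB A z) (hq : q ∈ LB A z) :
    Rch (LA A z \ Y) p q := by
  obtain ⟨a, -, a2⟩ := h.tot' p (h.lb_notY hp)
  obtain ⟨b, -, b2⟩ := h.tot' q (h.lb_notY hq)
  exact h.rch a2 b2 ((hc a ((h.lb a2).2 hp) b ((h.lb b2).2 hq)).mono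
    fun r hr => ⟨hr.1, h.lb_notX hr⟩)

/-- **surgery of a disc**: a disc and a sphere -/
theorem disc (hM : Mf 3 A) (hm : Mono A z) (hw : Dsc A w) (hc : chi A z = 3)
    [IsCoc A (cnt (Cls A z)ᶜ)] : Dsc A (cnt (Cls A z)ᶜ) ∧ chiC (Cls A z) = 2 := by
  obtain ⟨d1, d2⟩ := drop0 (A := A) hm
  have := h.le_two hM hm hw.nc
  have k := dsc_of hM d1 (fun p hp q hq => by
    obtain ⟨a, ha⟩ := sat_cls.compl.exists_pr' hm p
    obtain ⟨b, hb⟩ := sat_cls.compl.exists_pr' hm q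
    exact (sat_cls.compl.rch_iff hm ha hb).1 ((h.rch_lb (hw.conn_LB hM)
      ((sat_cls.compl.lb hm ha).2 hp) ((sat_cls.compl.lb hm hb).2 hq)).mono Set.sdiff_subset))
    (by omega)
  exact ⟨k, by have := k.chi; omega⟩

theorem meet' (hc : Conn (LA A w)) {q : Lv A z} (hq : q ∈ LA A z) :
    ∃ n ∈ N, Rch (LA A z) q n := by
  by_cases hY : q ∈ Y
  · exact ⟨q, h.yn hY, Rch.rfl⟩
  obtain ⟨p, p1, p2⟩ := h.tot' q hY
  obtain ⟨x, hx⟩ := h.xne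
  rcases (hc p ((h.lr.la p2).2 hq) x (h.xla hx)).exit p1 with ⟨k, -⟩ | ⟨r, r1, r2, y, -, y2, y3⟩
  · exact absurd hx k
  · obtain ⟨n, n1, n2⟩ := h.near' r1.2 y2 y3
    exact ⟨n, n1, (h.rch p2 n2 r2).mono Set.sdiff_subset⟩

theorem all_la (hw : ∀ p : Lv A w, p ∈ LA A w) (q : Lv A z) : q ∈ LA A z := by
  by_cases hY : q ∈ Y
  · exact h.nla (h.yn hY)
  · obtain ⟨p, -, p2⟩ := h.tot' q hY
    exact (h.lr.la p2).1 (hw p)

/-- **surgery of a sphere**: two spheres -/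
theorem sph (hM : Mf 3 A) (hm : Mono A z) (hw : Sph A w) (hc : chi A z = 4) :
    ∃ T : Set (Lv A z), Sat T ∧ Conn T ∧ Conn Tᶜ ∧ chiC T = 2 ∧ chiC Tᶜ = 2 := by
  have al := h.all_la hw.cl
  obtain ⟨p, hp⟩ := ne_of_chi hm (show chi A z ≠ 0 by omega)
  have hT := isCmp_cmp hp
  have sat : Sat (cmp (LA A z) p) := fun a b k =>
    ⟨fun j => hT.clopen j (al b) (Or.inl k), fun j => hT.clopen j (al a) (Or.inr k)⟩
  have c2 : Conn (cmp (LA A z) p)ᶜ := fun a ha b hb => by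
    obtain ⟨l, l1, l2⟩ := h.meet' hw.conn hp
    obtain ⟨m, m1, m2⟩ := h.meet' hw.conn (al a)
    obtain ⟨n, n1, n2⟩ := h.meet' hw.conn (al b)
    refine (sat.compl.rch ha (S := LA A z) ?_).mono Set.inter_subset_right
    rcases h.two l l1 m m1 n n1 with k | k | k
    · exact absurd ⟨al a, (l2.trans (h.jr l l1 m m1 k)).trans m2.symm⟩ ha
    · exact absurd ⟨al b, (l2.trans (h.jr l l1 n n1 k)).trans n2.symm⟩ hb
    · exact (m2.trans (h.jr m m1 n n1 k)).trans n2.symm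
  have e1 := cmp_le_two hM hm hT
  have e2 := chiC_le_two hM hm (fun q _ => al q) (fun a b k ha => (sat.compl a b k).1 ha) c2
  have e : chi A z = chiC (cmp (LA A z) p) + chiC (cmp (LA A z) p)ᶜ := by
    rw [chi_eq_chiC hm, ← chiC_union disjoint_compl_right, Set.union_compl_self,
      Set.eq_univ_of_forall al]
  exact ⟨_, sat, hT.conn, c2, by omega, by omega⟩

end Sg

end Crest.Agent.X212.Hp13
end
end

-- ▼ part X212/Hp13/IncU
section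

/-!
# X212 / Hp13 (helper13): INC for an upper disc, without exactness (after helper36's `incU`)
-/

set_option autoImplicit false
set_option linter.unusedSectionVars false

open Finset Classical

namespace Crest.Agent.X212.Hp13

open Crest.Agent.X212.Alg36
open Crest.Agent.X212.Sf30 (la_upper lv_le_of_le)

/-- a maximal surface `X` and a disc `E` of `Y` above it: a positive closed union of pieces -/
theorem incU0 (s : St) (X Y : s.P → s.P → ℤ) [hX : IsCoc s.A X] [hY : IsCoc s.A Y]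
    [i1 : IsCoc (Ch.top ⁻¹' s.A) (pb Ch.top X)]
    (E : Set (Lv s.A Y)) (good : Good s) (hup : IsUpperSet s.A) (sx : Sf s.A X) (mx : Max s X)
    (jx : ∀ x y, Dp s.A x y → X x y ≤ 1) (mY : Mono s.A Y) (sub : E ⊆ LA s.A Y) (hi : Inj E)
    (hc : Conn E) (h1 : chiC E = 1) (hu : IsUpperSet E) (hl : ¬ IsLowerSet E)
    (j0 : ∀ p ∈ E, ∀ q ∈ E, q ≤ p → X q.1.1.top p.1.1.top = 0)
    (j1 : ∀ p ∈ E, ∀ q, q ∉ E → q ≤ p → X q.1.1.top p.1.1.top = 1) :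
    IsLowerSet (Gam X E) ∧ ∃ D : Set (Lv (Ch.top ⁻¹' s.A) (pb Ch.top X)),
      D ⊆ LA _ _ \ Gam X E ∧ (∀ p ∈ D, ∀ r ∈ LA _ _ \ Gam X E, Cm p r → r ∈ D) ∧ ¬ Tch _ _ D ∧
      0 < chiC D := by
  have mX := sx.mono
  have hA : ∀ p ∈ E, p.1.1.top ∈ s.A := fun p k => Alg36.mt_up hup (sub k)
  set S := {q | ∃ e ∈ E, Cm e q} with hS
  have mixiff : ∀ K ∈ Cq S, K ∈ mix E ↔ 0 < X K.bot.1.1.top K.top.1.1.top := fun K hK => by
    by_cases b : K.top ∈ E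
    · by_cases a : K.bot ∈ E
      · exact iff_of_false (fun ⟨_, x, c, d⟩ => d (hu (Ch.bot_le c) a))
          (by rw [j0 _ b _ a K.bot_le_top]; norm_num)
      · exact iff_of_true ⟨⟨_, K.top_mem, b⟩, _, K.bot_mem, a⟩
          (by rw [j1 _ b _ a K.bot_le_top]; norm_num)
    · refine iff_of_false (fun c => b (Alg36.mt_up hu c.1)) ?_
      obtain ⟨e, he, c⟩ := hK _ K.top_mem
      have c := c.resolve_left fun k => b (hu k he)
      have t1 := j1 e he _ b c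
      have t2 := j1 e he _ (fun k => b (hu K.bot_le_top k)) (K.bot_le_top.trans c)
      have t3 := hX.coc.add' e.2.1 (Lv.ch_le (K.bot_le_top.trans c) K.bot.1.1.top_mem)
        (Lv.ch_le c K.top.1.1.top_mem) e.1.1.top_mem (Ch.top_mono (Lv.ch_le K.bot_le_top))
        (Ch.top_mono (Lv.ch_le c))
      omega
  haveI i2 : IsCoc (Ch.top ⁻¹' (Ch.top ⁻¹' s.A)) (pb Ch.top (pb Ch.top X)) :=
    ⟨i1.coc.pb Ch.top_mono⟩
  have gam : ∀ K ∈ Cq S, ∀ q : Lv (Ch.top ⁻¹' s.A) (pb Ch.top X), q.1.1 ≤ io K → q ∈ Gam X E := by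
    intro K hK q k
    obtain ⟨L, a, b⟩ := io_face k
    refine ⟨L, (mixiff L (lower_cq S a hK)).2 ?_, b⟩
    rw [← bot_io, ← top_io, b]
    exact q.2.2.1.trans_lt q.2.2.2
  have low : IsLowerSet (Gam X E) := fun p q a ⟨K, b, c⟩ => gam K (near b.1) q (c ▸ Lv.ch_le a)
  obtain ⟨lw, eu1⟩ := low_io good.mf mY sub hA hi hu hl hc
  rw [← hS] at lw eu1
  have g1 := Good.sd good
  have m1 : Mono (Ch.top ⁻¹' s.A) (pb Ch.top X) := mX.pb Ch.top_mono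
  have j2 : ∀ x y, Dp (Ch.top ⁻¹' (Ch.top ⁻¹' s.A)) x y → pb Ch.top (pb Ch.top X) x y ≤ 1 :=
    fun x y k => jx _ _ ((k.map Ch.top_mono).map Ch.top_mono)
  obtain ⟨z', z1, z2, -, -, z3⟩ := swap_low (Mf.sd (Mf.sd good.mf))
    (Bnd.sd g1.conv g1.nice g1.bnd) lw (eu1.trans h1)
    (show Sf (Ch.top ⁻¹' (Ch.top ⁻¹' s.A)) (pb Ch.top (pb Ch.top X)) from
      (Desc.sd s.sd).sf ((Desc.sd s).sf sx))
    (by
      rintro x _ k a ⟨L, b, rfl⟩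
      obtain ⟨K, c, rfl⟩ := io_face k.1
      simp only [pb, top_io]
      exact (j1 _ (Alg36.mt_up hu b.2) _ (fun d => a ⟨K, ⟨lower_cq S c b.1, _, K.top_mem, d⟩, rfl⟩)
        (Ch.top_mono c)).ge)
    (by
      rintro _ _ k ⟨K, a, rfl⟩ ⟨L, b, rfl⟩
      simp only [pb, top_io]
      exact j0 _ (Alg36.mt_up hu b.2) _ (Alg36.mt_up hu a.2) (Ch.top_mono (hi.le a.1 b.1 k.1)))
  obtain ⟨D, d1, d2, d3⟩ := z3.resolve_left
    ((mx.desc (Desc.sd s)).desc (Desc.sd s.sd) _ _ Desc.refl z' z1 z2).not_gt inferInstance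
  have cw : ∀ p, p ∈ CW (Ch.top ⁻¹' (Ch.top ⁻¹' s.A)) (pb Ch.top (pb Ch.top X)) (io '' Ce S E) ↔
      p.1.1.top ∈ io '' Ce S E := fun p =>
    ⟨fun a => a.1, fun a => ⟨a, by rw [(lev_zero j2 p).1, (lev_zero j2 p).2]; rfl⟩⟩
  have R := Kh11.ce_top.rf (Ch.top ⁻¹' s.A) (pb Ch.top X)
  have mim : ∀ (d : Ch (Ch (Ch s.P))) c, c ∈ (R.im d).1 ↔ ∃ C ∈ d.1, C.top = c :=
    fun d c => Ch.mem_img
  have cwB : ∀ p : Lv _ (pb Ch.top (pb Ch.top X)), p.1.1.top ∈ io '' Ce S E →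
      R.map p ∈ Gam X E := fun p ⟨K, a, b⟩ => gam K a.1 _ fun c hc => by
    obtain ⟨C, c1, rfl⟩ := (mim _ c).1 hc
    exact b ▸ Ch.le_top c1 C.top_mem
  have emb := emb_univ (m1.pb Ch.top_mono) j2
  have le : ∀ p q : Lv _ (pb Ch.top (pb Ch.top X)), p.1.1 ≤ q.1.1 → p ≤ q :=
    fun p q => emb p trivial q trivial
  -- the strip
  have z : chiC (D ∩ R.map ⁻¹' Gam X E) = 0 := by
    have k : ∀ C : Ch (Ch s.P), ∃ r : Ch (Ch s.P), ∀ p ∈ S, p.1.1 = C.top →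
        ∀ c, c ∈ r.1 ↔ c ∈ C.1 ∧ ∃ k, k ≤ p ∧ k.1.1 = c := fun C => by
      by_cases a : ∃ p ∈ S, p.1.1 = C.top
      · obtain ⟨p, a, b⟩ := a
        refine ⟨C.sub (C.1.filter fun c => ∃ k, k ≤ p ∧ k.1.1 = c)
          ⟨_, mem_filter.2 ⟨C.top_mem, p, le_rfl, b⟩⟩ (filter_subset _ _), fun q c d e => ?_⟩
        rw [hi q p c a (d.trans b.symm)]
        exact mem_filter
      · exact ⟨C, fun p b c => absurd ⟨p, b, c⟩ a⟩
    choose r hr using k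
    have top : ∀ p : Lv _ (pb Ch.top (pb Ch.top X)), ∀ L : Ch (Lv s.A Y),
        io L = (R.map p).1.1 → ∀ x ∈ p.1.1.1, ∃ u ∈ L.1, u.1.1 = x.top := fun p L e x hx =>
      mem_io.1 (by rw [e]; exact (mim _ _).2 ⟨x, hx, rfl⟩)
    have rt : ∀ (x : Ch (Ch s.P)) (u : Lv s.A Y), u ∈ S → u.1.1 = x.top →
        r x ≤ x ∧ (r x).top = x.top := fun x u a b =>
      have l : r x ≤ x := fun c hc => ((hr x u a b c).1 hc).1
      ⟨l, le_antisymm (Ch.top_mono l) (Ch.le_top ((hr x u a b _).2 ⟨x.top_mem, u, le_rfl, b⟩))⟩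
    have nq : ∀ p ∈ D ∩ R.map ⁻¹' Gam X E, p.1.1.top ∉ io '' Cq S := by
      rintro p ⟨a, L, b, c⟩ ⟨K, d, e⟩
      refine (d1.sub a).2 ((cw p).2 ⟨K, ⟨d, _, K.top_mem, ?_⟩, e⟩)
      rw [hi K.top L.top (d _ K.top_mem) (near b.1 _ L.top_mem)
        (by rw [← top_io, ← top_io, e, c]; exact (R.im_top _).symm)]
      exact Alg36.mt_up hu b.1
    rw [chiC_eq_of (T := Lv.ch '' (D ∩ R.map ⁻¹' Gam X E)) Ch.sg (fun c p => p.1.1 = c)
      (fun c a => a) (fun p a => ⟨_, ⟨p, a, rfl⟩, rfl⟩) (fun _ _ _ _ _ a b => a.symm.trans b)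
      (fun _ p q a b => le_antisymm (le _ _ (a.trans b.symm).le) (le _ _ (a.trans b.symm).ge))
      fun _ _ a => by rw [a]]
    refine strip (Q := io '' Cq S) r (by rintro _ ⟨p, a, rfl⟩; exact nq p a) ?_ ?_
    · rintro _ ⟨p, ⟨-, L, b, c⟩, rfl⟩ x hx -
      obtain ⟨u, u1, u2⟩ := top p L c x hx
      have uS : u ∈ S := near b.1 u u1
      obtain ⟨r1, r2⟩ := rt x u uS u2
      refine ⟨?_, r1, ?_⟩
      · obtain ⟨k, k1, k2⟩ := ((hr x u uS u2 _).1 (r x).bot_mem).2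
        obtain ⟨K, l1, l2⟩ := io_lift mY k (C := r x) k2.le (by rw [r2, ← u2]; exact u.2.1)
        have : K.top = u := Sf30.lv_eq_of_ge (l2 _ K.top_mem) k1 (by rw [← top_io, l1, r2, u2])
        refine ⟨K, fun v hv => ?_, l1⟩
        have hv' : v ≤ L.top := (this ▸ Ch.le_top hv).trans (Ch.le_top u1)
        exact ⟨_, Alg36.mt_up hu b.1, Or.inr hv'⟩
      · rintro _ hy ⟨K, k1, rfl⟩ k2 c hc
        obtain ⟨v, v1, rfl⟩ := mem_io.1 hc
        obtain ⟨t, t1, t2⟩ := top p L c _ hy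
        rw [top_io] at t2
        have : t ≤ u := lv_le_of_le (Ch.le_top t1) (Ch.le_top u1)
          (by rw [t2, u2, ← top_io]; exact Ch.top_mono k2)
        exact (hr x u uS u2 _).2 ⟨k2 hc, v, (Ch.le_top v1).trans
          (hi t K.top (near b.1 t t1) (k1 _ K.top_mem) t2 ▸ this), rfl⟩
    · rintro _ ⟨p, a, rfl⟩ x hx nx d hd
      obtain ⟨L, b, c⟩ := a.2
      obtain ⟨u, u1, u2⟩ := top p L c x hx
      obtain ⟨r1, r2⟩ := rt x u (near b.1 u u1) u2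
      have ne : ∀ y ∈ p.1.1.1, x ≤ y → y ≠ r x := fun y _ k e => nx (by
        have ex : r x = x := le_antisymm r1 (e ▸ k)
        obtain ⟨k, k1, k2⟩ := ((hr x u (near b.1 u u1) u2 x.bot).1
          (by rw [ex]; exact x.bot_mem)).2
        obtain ⟨K, l1, l2⟩ := io_lift mY k (C := x) k2.le (by rw [← u2]; exact u.2.1)
        have : K.top = u := Sf30.lv_eq_of_ge (l2 _ K.top_mem) k1 (by rw [← top_io, l1, u2])
        exact ⟨K, fun v hv => ⟨_, Alg36.mt_up hu b.1,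
          Or.inr ((this ▸ Ch.le_top hv).trans (Ch.le_top u1))⟩, l1⟩)
      have m : (∀ y ∈ d.1, y = r x ∨ y ∈ p.1.1.1) ∧ (∀ y ∈ p.1.1.1, y ≠ r x → y ∈ d.1) ∧
          Cm p.1.1 d := by
        rcases hd with e | e
        · exact ⟨fun y hy => mem_insert.1 (e ▸ hy), fun y hy _ => e ▸ mem_insert_of_mem hy,
            Or.inl (by rw [Ch.le_iff, e]; exact subset_insert _ _)⟩
        · exact ⟨fun y hy => Or.inr (mem_erase.1 (e ▸ hy)).2,
            fun y hy k => e ▸ mem_erase.2 ⟨k, hy⟩,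
            Or.inr (by rw [Ch.le_iff, e]; exact erase_subset _ _)⟩
      have dt : d.top = p.1.1.top := Ch.top_eq (m.2.1 _ p.1.1.top_mem
        (ne _ p.1.1.top_mem (Ch.le_top hx))) fun y hy => (m.1 y hy).elim
          (fun e => e ▸ r1.trans (Ch.le_top hx)) Ch.le_top
      have im : R.im d = (R.map p).1.1 := Ch.ext (Finset.ext fun c => by
        rw [mim, Kh11.Rf.map_ch, mim]
        refine ⟨fun ⟨y, hy, e⟩ => ?_, fun ⟨y, hy, e⟩ => ?_⟩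
        · rcases m.1 y hy with rfl | k
          exacts [⟨x, hx, r2 ▸ e⟩, ⟨y, k, e⟩]
        · by_cases k : y = r x
          exacts [⟨x, m.2.1 x hx (ne x hx le_rfl), by rw [← r2, ← k, e]⟩, ⟨y, m.2.1 y hy k, e⟩])
      have md : Mt (Ch.top ⁻¹' (Ch.top ⁻¹' s.A)) d := R.mt.1 (im ▸ R.map_LA.2 (d1.sub a.1).1)
      refine ⟨R.lift (R.map p) d md.dom im, ⟨d1.clopen a.1 ⟨md, fun k => (d1.sub a.1).2
        ((cw p).2 (dt ▸ (cw _).1 k))⟩ (m.2.2.imp (le _ _) (le _ _)), ?_⟩, rfl⟩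
      rw [Set.mem_preimage, R.map_lift]; exact a.2
  -- projection to the first level
  let V := LA (Ch.top ⁻¹' s.A) (pb Ch.top X) \ Gam X E
  have hV : V.OrdConnected := ⟨fun a ha b _ c hc => ⟨la_upper hc.1 ha.1, fun k => ha.2 (low hc.1 k)⟩⟩
  have ws := R.ws m1 (V := V) (fun _ k => k.1) hV
  have inV : ∀ p ∈ D \ R.map ⁻¹' Gam X E, p ∈ R.map ⁻¹' V := fun p k =>
    ⟨R.map_LA.2 (d1.sub k.1).1, k.2⟩
  have clo : ∀ p ∈ D \ R.map ⁻¹' Gam X E, ∀ q ∈ R.map ⁻¹' V, Cm p q →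
      q ∈ D \ R.map ⁻¹' Gam X E := fun p k q l c =>
    ⟨d1.clopen k.1 ⟨R.map_LA.1 l.1, fun a => l.2 (cwB q ((cw q).1 a))⟩ c, l.2⟩
  have key : ∀ p ∈ D \ R.map ⁻¹' Gam X E, ∀ q ∈ R.map ⁻¹' V, Rch V (R.map p) (R.map q) →
      q ∈ D \ R.map ⁻¹' Gam X E := fun p k q l c =>
    ((((ws.rch_iff (inV p k) l).2 c).in_clopen clo k).mem k)
  have sV : R.map '' (D \ R.map ⁻¹' Gam X E) ⊆ V := by rintro _ ⟨p, k, rfl⟩; exact inV p k
  have pre : R.map ⁻¹' (R.map '' (D \ R.map ⁻¹' Gam X E)) = D \ R.map ⁻¹' Gam X E :=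
    Set.ext fun q => ⟨fun ⟨p, k, e⟩ => key p k q (sV ⟨p, k, e⟩) (e ▸ Rch.rfl), fun k => ⟨q, k, rfl⟩⟩
  refine ⟨low, _, sV, ?_, fun k => d2 ?_, ?_⟩
  · rintro _ ⟨p, k, rfl⟩ r l c
    obtain ⟨q, rfl⟩ := R.surj l.1
    exact ⟨q, key p k q l (Rch.of_cm (inV p k) l c), rfl⟩
  · rw [← R.tch_pre fun _ a => (sV a).1, pre] at k
    obtain ⟨p, a, b⟩ := k
    exact ⟨p, a.1, b⟩
  · have := chiC_split D (R.map ⁻¹' Gam X E)
    rw [← R.chiC_pre fun _ a => (sV a).1, pre]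
    omega

/-- from a positive closed union of pieces to a disc -/
theorem piece_of {P : Type} [PartialOrder P] [Fintype P] {A : Set P} {w : P → P → ℤ} [IsCoc A w]
    (hM : Mf 3 A) (hw : Sf A w) {G D : Set (Lv A w)} (hG : IsLowerSet G) (hD : D ⊆ LA A w \ G)
    (hc : ∀ p ∈ D, ∀ r ∈ LA A w \ G, Cm p r → r ∈ D) (hT : ¬ Tch A w D) (h0 : 0 < chiC D) :
    ∃ C, IsCmp (LA A w \ G) C ∧ ¬ Tch A w C ∧ chiC C = 1 ∧ ∃ p ∈ C, ∃ q ∈ G, q ≤ p := by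
  obtain ⟨p, hp, pos⟩ := exists_cmp_pos hD hc h0
  have hC := isCmp_cmp (hD hp)
  have hT' : ¬ Tch A w (cmp (LA A w \ G) p) := fun ⟨b, b1, b2⟩ =>
    hT ⟨b, (Rch.in_clopen hc hp b1.2).mem hp, b2⟩
  obtain ⟨b, ⟨b1, b2⟩, b3⟩ := hw.noCl _ (isCmp_cmp (hD hp).1)
  rcases b2.exit (hD hp).2 with ⟨k1, k⟩ | ⟨r, r1, r2, x, -, x2, x3⟩
  · exact absurd ⟨b, ⟨⟨b1, k1⟩, k⟩, b3⟩ hT'
  · exact ⟨_, hC, hT', le_antisymm (chiC_le_one hM hw.mono (fun _ k => k.1.1)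
      (hC.upper (la_upper.sdiff_of_isLowerSet hG)) hC.conn ⟨r1, r2⟩ (fun k => k.1.2 x2) x3) pos,
      r, ⟨r1, r2⟩, x, x2, x3.resolve_left fun k => r1.2 (hG k x2)⟩

/-- **INC, upper disc** -/
theorem incU1 (s : St) (X Y : s.P → s.P → ℤ) [hX : IsCoc s.A X] [hY : IsCoc s.A Y]
    [i1 : IsCoc (Ch.top ⁻¹' s.A) (pb Ch.top X)]
    (E : Set (Lv s.A Y)) (good : Good s) (hup : IsUpperSet s.A) (sx : Sf s.A X) (mx : Max s X)
    (jx : ∀ x y, Dp s.A x y → X x y ≤ 1) (mY : Mono s.A Y) (sub : E ⊆ LA s.A Y) (hi : Inj E)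
    (hc : Conn E) (h1 : chiC E = 1) (hu : IsUpperSet E) (hl : ¬ IsLowerSet E)
    (j0 : ∀ p ∈ E, ∀ q ∈ E, q ≤ p → X q.1.1.top p.1.1.top = 0)
    (j1 : ∀ p ∈ E, ∀ q, q ∉ E → q ≤ p → X q.1.1.top p.1.1.top = 1) :
    IsLowerSet (Gam X E) ∧ ∃ C : Set (Lv (Ch.top ⁻¹' s.A) (pb Ch.top X)),
      IsCmp (LA _ _ \ Gam X E) C ∧ ¬ Tch _ _ C ∧ chiC C = 1 ∧ ∃ p ∈ C, ∃ q ∈ Gam X E, q ≤ p :=
  let ⟨a, _, b, c, d, e⟩ := incU0 s X Y E good hup sx mx jx mY sub hi hc h1 hu hl j0 j1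
  ⟨a, piece_of (Mf.sd good.mf) (show Sf (Ch.top ⁻¹' s.A) (pb Ch.top X) from (Desc.sd s).sf sx)
    a b c d e⟩

end Crest.Agent.X212.Hp13
end

-- ▼ part X212/Hp13/NegM

/-!
# X212 / Hp13 (helper13): `NegMStmt`, a disc with boundary in `R₋`
-/

set_option autoImplicit false
set_option linter.unusedSectionVars false

open Finset Classical

namespace Crest.Agent.X212.Hp13

open Crest.Agent.X212.Alg36 Cut21 Pt30
open Sup43 (Inn inn_up inn_sub)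

section
variable {P : Type} [PartialOrder P] [Fintype P] {M : Set P} {e : P → P → ℤ}

/-- the boundary curve of `F`, one level up -/
def Gm (M : Set P) (e : P → P → ℤ) (F : Set (Ch P)) : Set (Ch (Ch P)) :=
  {K | K.bot ∈ Qe M e ∧ K.bot ∉ F ∧ K.top ∈ F}

theorem tch_of_tc [IsCoc M e] (h : Z1 M e) (hM : IsUpperSet M) {C : Set (Ch P)} (hC : C ⊆ Mx M e)
    (k : Tc M e C) : Tch M e (Pt30.ch ⁻¹' C) := by
  obtain ⟨c, c1, x, x1, y, y1, l, y2, j⟩ := k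
  have q : Ch.pr x y l ∈ Qe M e :=
    ⟨(dom_top (hC c1).1).mono (Ch.pr_le l x1 y1), by simpa using j⟩
  refine ⟨cel (mx_qe subset_rfl (hC c1)), c1, cel q, fun k => y2 ?_, h.ch_le.1 (Ch.pr_le l x1 y1)⟩
  simpa using (mt_top hM).1 (show Mt M (Ch.pr x y l) from k)

theorem gam_eq [IsCoc M e] (h : Z1 M e) {F : Set (Ch P)} (sub : F ⊆ Mx M e) (hu : IsUpperSet F)
    (X : P → P → ℤ) : Gam X (Pt30.ch ⁻¹' F : Set (Lv M e)) = Pt30.ch ⁻¹' Gm M e F := by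
  have hu' : IsUpperSet (Pt30.ch ⁻¹' F : Set (Lv M e)) := fun _ _ k => hu (h.ch_le.2 k)
  ext p
  refine ⟨fun ⟨K, ⟨a, x, x1, x2⟩, b⟩ => ?_, fun ⟨a, b, c⟩ => ?_⟩
  · have e1 : (Pt30.ch p).bot = Pt30.ch K.bot := by rw [Pt30.ch, ← b, bot_io]; rfl
    have e2 : (Pt30.ch p).top = Pt30.ch K.top := by rw [Pt30.ch, ← b, top_io]; rfl
    exact ⟨e1 ▸ ch_mem _, e1 ▸ fun k => x2 (hu' (Ch.bot_le x1) k), e2 ▸ Alg36.mt_up hu' a⟩
  · obtain ⟨K, l1, -⟩ := io_lift h.mono (cel a) (C := Pt30.ch p) le_rfl (dom_top (sub c).1)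
    refine ⟨K, ⟨⟨_, K.top_mem, ?_⟩, _, K.bot_mem, fun k => b ?_⟩, l1⟩
    · rw [← l1, top_io] at c; exact c
    · rw [← l1, bot_io]; exact k

end

/-- **INC, upper disc**, on families of chains -/
theorem incU2 {P : Type} [PartialOrder P] [Fintype P] {M : Set P} {X e : P → P → ℤ}
    {F : Set (Ch P)} (good : Good ⟨P, M⟩)
    (hup : IsUpperSet M) (sx : Sf M X) (mx : Max ⟨P, M⟩ X) (hX : Z1 M X) (he : Z1 M e)
    (sub : F ⊆ Mx M e) (hu : IsUpperSet F) (hc : Conn F) (h1 : eu F = 1)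
    (hl : ∃ q ∈ Qe M e, q ∉ F ∧ ∃ c ∈ F, q ≤ c)
    (j0 : ∀ c ∈ F, ∀ q ∈ F, q ≤ c → X q.top c.top = 0)
    (j1 : ∀ c ∈ F, ∀ q ∈ Qe M e, q ∉ F → q ≤ c → X q.top c.top = 1) :
    ∃ D, IsCmp (Mx (Ch.top ⁻¹' M) (pb Ch.top X) \ Gm M e F) D ∧
      ¬ Tc (Ch.top ⁻¹' M) (pb Ch.top X) D ∧ eu D = 1 ∧ IsUpperSet D ∧
      ∃ K ∈ D, ∃ L ∈ Gm M e F, L ∈ Qe (Ch.top ⁻¹' M) (pb Ch.top X) ∧ L ≤ K := by
  have hM : Mf 3 M := good.mf
  have i0 : IsCoc M X := ⟨hX.coc⟩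
  have i1 : IsCoc M e := ⟨he.coc⟩
  have X1 := hX.pb (Ch.top_mono (P := P))
  have i2 : IsCoc (Ch.top ⁻¹' M) (pb Ch.top X) := ⟨X1.coc⟩
  have up1 : IsUpperSet (Ch.top ⁻¹' M : Set (Ch P)) := hup.preimage Ch.top_mono
  have sq := sub.trans (mx_qe subset_rfl)
  obtain ⟨low, C, c1, c2, c3, p, p1, q, q1, q2⟩ := incU1 ⟨P, M⟩ X e (Pt30.ch ⁻¹' F) good hup sx mx hX.le
    he.mono (by rw [la_eq hup]; exact Set.preimage_mono sub) (fun p q _ _ k => he.ch_inj k)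
    ((he.conn_pre sq).2 hc) (by rw [he.chiC_pre sq, ← he.eu_eq hM sub hu, h1])
    (fun _ _ k => hu (he.ch_le.2 k))
    (fun k => let ⟨q, a, b, c, d, l⟩ := hl
      b (k (a := cel (sq d)) (b := cel a) (he.ch_le.1 l) d))
    (fun p a q b l => j0 _ a _ b (he.ch_le.2 l))
    fun p a q b l => j1 _ a _ (ch_mem q) b (he.ch_le.2 l)
  replace low : IsLowerSet (Gam X (Pt30.ch ⁻¹' F : Set (Lv M e))) := low
  replace c1 : IsCmp (LA _ _ \ Gam X (Pt30.ch ⁻¹' F : Set (Lv M e))) C := c1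
  replace q1 : q ∈ Gam X (Pt30.ch ⁻¹' F : Set (Lv M e)) := q1
  rw [gam_eq he sub hu] at low c1 q1
  rw [la_eq up1, ← Set.preimage_diff] at c1
  have sq1 : Mx (Ch.top ⁻¹' M) (pb Ch.top X) \ Gm M e F ⊆ Qe _ _ :=
    Set.sdiff_subset.trans (mx_qe subset_rfl)
  obtain ⟨D, d1, rfl⟩ := X1.cmp_ex sq1 c1
  have sD : D ⊆ Mx (Ch.top ⁻¹' M) (pb Ch.top X) := d1.sub.trans Set.sdiff_subset
  have uD : IsUpperSet D := fun a b k ha => by
    have m := mx_upper X1 up1 subset_rfl k (sD ha)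
    refine d1.clopen ha ⟨m, fun j => (d1.sub ha).2 ?_⟩ (Or.inl k)
    exact low (a := cel (mx_qe subset_rfl m)) (b := cel (mx_qe subset_rfl (sD ha)))
      (X1.ch_le.1 k) j
  refine ⟨D, d1, fun k => c2 (tch_of_tc X1 up1 sD k), ?_, uD, _, p1, _, q1, ch_mem q,
    X1.ch_le.2 q2⟩
  rw [X1.eu_eq (Mf.sd hM) sD uD, ← X1.chiC_pre (d1.sub.trans sq1), c3]

section
variable {P : Type} [PartialOrder P] [Fintype P] {A : Set P} {e : P → P → ℤ} {F : Set (Ch P)}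

theorem rm_inn (hA : A.OrdConnected) {x y : P} (h : Dp (Inn A) x y) :
    Rm A x y = ind A y - ind A x := by
  obtain ⟨b, hb, l⟩ := Sup43.dp_up inn_up h
  have k : ∀ t, t ≤ b → ind {x | ∃ a ∈ A, a ≤ x} t = ind A t := fun t ht => by
    by_cases j : t ∈ A
    · rw [ind_of_mem j, ind_of_mem (E := {x | ∃ a ∈ A, a ≤ x}) ⟨t, j, le_rfl⟩]
    · rw [ind_of_not j, ind_of_not (E := {x | ∃ a ∈ A, a ≤ x})
        fun ⟨a, a1, a2⟩ => j (hA.out a1 hb.1 ⟨a2, ht⟩)]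
  rw [Rm, cb, k y l, k x (h.1.trans l)]

theorem z1_rm (hA : A.OrdConnected) : Z1 (Inn A) (Rm A) :=
  ⟨coc_Rm.mono inn_sub, mono_Rm.mono inn_sub, fun x y h => by
    have := ind_le_one (E := A) y
    have := ind_nonneg (E := A) x
    rw [rm_inn hA h]; omega⟩

theorem rm_pos (hA : A.OrdConnected) {x y : P} (h : Dp (Inn A) x y) :
    0 < Rm A x y ↔ x ∉ A ∧ y ∈ A := by
  rw [rm_inn hA h]
  by_cases a : x ∈ A <;> by_cases b : y ∈ A <;> simp [ind, a, b]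

/-- the boundary cells of `F` -/
def Gb (M : Set P) (e : P → P → ℤ) (F : Set (Ch P)) : Set (Ch P) :=
  {q | 0 < e q.bot q.top ∧ ∃ c ∈ F, q ≤ c}

/-- the rest of `R₋` -/
def W1 (A : Set P) (e : P → P → ℤ) (F : Set (Ch P)) : Set (Ch P) :=
  {c | c.top ∈ Om (Inn A) ∧ c.top ∉ A ∧ c ∉ Gb (Inn A) e F}

theorem gb_up {M : Set P} (h : Z1 M e) (hM : IsUpperSet M) (hN : Nice M) (hF : IsCmp (Mx M e) F)
    {q c : Ch P} (hq : q ∈ Gb M e F) (k : q ≤ c) (hc : Dom M c) : c ∈ Gb M e F := by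
  obtain ⟨u, hu, l⟩ := (dom_up hM).1 hc
  obtain ⟨h1, d, d1, d2⟩ := hq
  exact ⟨h.up hc k h1, tp c u l, h.cmp_over hM hN hF h1 d1 d2 (k.trans (le_tp _ _ _))
    (by simpa using hu), le_tp _ _ _⟩

theorem gb_mem {M : Set P} (h : Z1 M e) (hM : IsUpperSet M) (hN : Nice M) (hF : IsCmp (Mx M e) F)
    {q c : Ch P} (hq : q ∈ Gb M e F) (k : q ≤ c) (hc : c.top ∈ M) : c ∈ F :=
  let ⟨h1, _, d1, d2⟩ := hq; h.cmp_over hM hN hF h1 d1 d2 k hc

theorem w1_low (hA : A.OrdConnected) (h : Z1 (Inn A) e) (hN : Nice (Inn A))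
    (hF : IsCmp (Mx (Inn A) e) F) : IsLowerSet (W1 A e F) := fun c d k hc => by
  obtain ⟨⟨h1, u, hu, l⟩, h2, h3⟩ := hc
  have t := Ch.top_mono k
  exact ⟨⟨fun j => h1 (inn_up t j), u, hu, t.trans l⟩, fun j => h2 (hA.out j hu.1 ⟨t, l⟩),
    fun j => h3 (gb_up h inn_up hN hF j k ((dom_up inn_up).2 ⟨u, hu, l⟩))⟩

theorem rest_eq (hA : A.OrdConnected) (h : Z1 (Inn A) e) (hN : Nice (Inn A))
    (hF : IsCmp (Mx (Inn A) e) F) :
    Mx (Ch.top ⁻¹' Inn A) (pb Ch.top (Rm A)) \ Gm (Inn A) e F =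
      Sr (Ch.top ⁻¹' Inn A) (W1 A e F) := by
  ext K
  have t := Ch.top_mono K.bot_le_top
  refine ⟨fun ⟨⟨a, b⟩, c⟩ => ⟨a, _, K.bot_mem, ?_⟩, fun ⟨a, c, c1, c2⟩ => ?_⟩
  · have b := ((rm_pos hA (Dp.of_right a t)).1 b).1
    refine ⟨⟨fun j => b j.1, _, a, t⟩, b, fun j => c ⟨⟨(dom_top (M := Inn A) a).mono K.bot_le_top, j.1⟩,
      fun i => b (hF.sub i).1.1, gb_mem h inn_up hN hF j K.bot_le_top a⟩⟩
  · have c2 := w1_low hA h hN hF (Ch.bot_le c1) c2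
    exact ⟨⟨a, (rm_pos hA (Dp.of_right a t)).2 ⟨c2.2.1, a.1⟩⟩,
      fun j => c2.2.2 ⟨j.1.2, _, j.2.2, K.bot_le_top⟩⟩

theorem negM_core (hA : A.OrdConnected) (good : Good ⟨P, Inn A⟩) (th : Thick A)
    (sf : Sf (Inn A) (Rm A)) (mx : Max ⟨P, Inn A⟩ (Rm A)) (he : Z1 (Inn A) e) (vt : Vt A e)
    (hF : IsCmp (Mx (Inn A) e) F) (h1 : eu F = 1) (tc : Tc (Inn A) e F)
    (hfr : ∀ c ∈ F, ∀ b ∈ c.1, b ∉ Fr A) : ∃ W, Ng A e W := by
  have hN : Nice (Inn A) := good.nice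
  have hM : Mf 3 (Inn A) := good.mf
  have uF : IsUpperSet F := hF.upper (mx_upper he inn_up subset_rfl)
  have off : ∀ c ∈ F, ∀ x ∈ c.1, x ∉ Inn A → x ∉ A := fun c a x b k j =>
    k ⟨j, hfr c a x b⟩
  have R := z1_rm hA
  obtain ⟨D, d1, d2, d3, d4, K₀, k1, L₀, l1, -, l2⟩ := incU2 good inn_up sf mx R he hF.sub uF hF.conn h1
    (by
      obtain ⟨c, c1, x, x1, y, y1, l, y2, j⟩ := tc
      exact ⟨Ch.pr x y l, ⟨(dom_top (hF.sub c1).1).mono (Ch.pr_le l x1 y1), by simpa using j⟩,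
        fun k => y2 (by simpa using (hF.sub k).1), c, c1, Ch.pr_le l x1 y1⟩)
    (fun c a q b l => by
      rw [rm_inn hA (Dp.of_right (hF.sub a).1 (Ch.top_mono l)), ind_of_mem (hF.sub a).1.1,
        ind_of_mem (hF.sub b).1.1, sub_self])
    fun c a q b n l => by
      rw [rm_inn hA (Dp.of_right (hF.sub a).1 (Ch.top_mono l)), ind_of_mem (hF.sub a).1.1,
        ind_of_not (off c a _ (l q.top_mem) fun j => n (hF.clopen a ⟨j, b.2⟩ (Or.inr l))), sub_zero]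
  have sD : D ⊆ Mx (Ch.top ⁻¹' Inn A) (pb Ch.top (Rm A)) := d1.sub.trans Set.sdiff_subset
  have up1 : IsUpperSet (Ch.top ⁻¹' Inn A : Set (Ch P)) := inn_up.preimage Ch.top_mono
  have R1 := R.pb (Ch.top_mono (P := P))
  have low := w1_low hA he hN hF
  -- the faces of `D`
  have face : ∀ q ∈ Qe (Ch.top ⁻¹' Inn A) (pb Ch.top (Rm A)), q ∉ D → ∀ c ∈ D, q ≤ c →
      q ∈ Gm (Inn A) e F := fun q a b c k l => by_contra fun n => b (d1.clopen k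
        ⟨⟨by_contra fun j => d2 ⟨c, k, _, l q.bot_mem, _, l q.top_mem, q.bot_le_top, j, a.2⟩,
          a.2⟩, n⟩ (Or.inr l))
  have d0 := d1
  rw [rest_eq hA he hN hF] at d1
  have ws := ws_sr up1 (Nice.sd inn_up.ordConnected hN)
    (W := W1 A e F) fun c hc => Hlf24.om_sd.2 hc.1
  obtain ⟨V, v1, v2⟩ := ws.isCmp_ex d1
  have vl : IsLowerSet V := fun a b k ha => v1.clopen ha (low k (v1.sub ha)) (Or.inr k)
  have inD : ∀ K : Ch (Ch P), K.top.top ∈ Inn A → K.bot ∈ V → K ∈ D := fun K a b => by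
    have m : Mt (W1 A e F) K := ⟨_, K.bot_mem, v1.sub b⟩
    rw [v2]
    exact ⟨⟨a, m⟩, v1.clopen b (tw_mem m).2 (Or.inl (Ch.bot_le (tw_mem m).1))⟩
  have botV : ∀ K ∈ D, K.bot ∈ V := fun K a => by
    rw [v2] at a
    exact vl (Ch.bot_le (tw_mem a.1.2).1) a.2
  have euV : eu V = 1 := by
    rw [← d3, v2]; exact (ws.restr (Kh11.clo_cmp v1)).eu_eq.symm
  have flat : ∀ c ∈ V, ∀ q ∈ Gb (Inn A) e F, c ≤ q → e c.bot c.top = 0 := fun c a q b l => by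
    obtain ⟨-, d, b1, b2⟩ := b
    have := he.mono _ _ ((dom_top (hF.sub b1).1).mono (l.trans b2)).bt
    have : ¬ 0 < e c.bot c.top := fun j => (v1.sub a).2.2 ⟨j, d, b1, l.trans b2⟩
    omega
  have gmb : ∀ q ∈ Gm (Inn A) e F, q.bot ∈ Gb (Inn A) e F := fun q a =>
    ⟨a.1.2, _, a.2.2, q.bot_le_top⟩
  -- the cell over an edge
  have cell : ∀ {u v i : P} (l : u ≤ v) (l' : v ≤ i) (x : P), x = u ∨ x = v →
      ∃ K : Ch (Ch P), K.bot = Ch.pt x ∧ K.top = Ch.tr u v i l l' ∧ Ch.pr u v l ∈ K.1 :=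
    fun {u v i} l l' x hx => by
      have a : Ch.pt x ≤ Ch.pr u v l := Ch.pt_le.2 (by simpa using hx)
      have b : Ch.pr u v l ≤ Ch.tr u v i l l' := Ch.pr_le _ (by simp [Ch.mem_tr]) (by simp [Ch.mem_tr])
      exact ⟨Ch.tr _ _ _ a b, Ch.bot_tr _ _, Ch.top_tr _ _, by simp [Ch.mem_tr]⟩
  -- one side
  have one : ∀ u v (l : u ≤ v), Ch.pt u ∈ V → Ch.pt v ∈ V → Ch.pr u v l ∉ Gb (Inn A) e F := by
    intro u v l hu hv g
    obtain ⟨⟨-, i, hi, l'⟩, nv, -⟩ := v1.sub hv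
    simp only [Ch.top_pt] at l' nv
    have b : Ch.pr u v l ≤ Ch.tr u v i l l' := Ch.pr_le _ (by simp [Ch.mem_tr]) (by simp [Ch.mem_tr])
    have ti : (Ch.tr u v i l l').top ∈ Inn A := by rwa [Ch.top_tr]
    have q1 : Ch.pr _ _ b ∈ Qe (Ch.top ⁻¹' Inn A) (pb Ch.top (Rm A)) :=
      ⟨dom_top (by simpa using ti), by
        simp only [pb, Ch.bot_pr, Ch.top_pr, Ch.top_tr]
        exact (rm_pos hA (Dp.of_right hi l')).2 ⟨nv, hi.1⟩⟩
    have q2 : Ch.pr _ _ b ∉ D := fun j => (v1.sub (botV _ j)).2.2 (by simpa using g)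
    obtain ⟨K, a1, a2, a3⟩ := cell l l' u (Or.inl rfl)
    obtain ⟨K', b1, b2, b3⟩ := cell l l' v (Or.inr rfl)
    have := R1.rim (Mf.sd hM) sD d4 d0.conn d3.ge (fun q c => e q.bot.bot c.bot.top)
      (fun q a n c k c' j j' => ?_) (fun q a n c k q' a' j j' => ?_)
      q1 q2 (inD K (a2 ▸ ti) (a1 ▸ hu)) (Ch.pr_le _ a3 (a2 ▸ K.top_mem))
      q1 q2 (inD K' (b2 ▸ ti) (b1 ▸ hv)) (Ch.pr_le _ b3 (b2 ▸ K'.top_mem))
    · have g1 := g.1
      simp only [a1, b1, Ch.bot_pr, Ch.top_pr, Ch.top_pt] at this g1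
      rw [he.self hi (l.trans l')] at this
      omega
    · have g := gmb q (face q a n c k j)
      have t : q.bot.top ≤ c.top.top := Ch.top_mono (Ch.le_top (j q.bot_mem))
      have c1 : c.bot ≤ q.bot := Ch.bot_anti j
      have c2 : c'.bot ≤ c.bot := Ch.bot_anti j'
      have f := flat _ (botV c k) _ g c1
      have m := (sD k).1
      have t1 := Ch.top_mono c1
      have e1 := he.add m (Ch.bot_le (c1 (c2 c'.bot.top_mem))) (Ch.top_mono c2) (t1.trans t)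
      have e2 := he.add m (Ch.bot_le (c2 c'.bot.top_mem)) (Ch.top_mono c2) (t1.trans t)
      have := he.nn m (Ch.bot_le (c2 c'.bot.top_mem)) ((Ch.top_mono c2).trans (t1.trans t))
      beta_reduce at f
      have := he.nn m (Ch.top_mono c2) (t1.trans t)
      show e q.bot.bot c.bot.top = e q.bot.bot c'.bot.top
      omega
    · have g := gmb q (face q a n c k j')
      have c1 : c.bot ≤ q.bot := Ch.bot_anti j'
      have c2 : q.bot ≤ q'.bot := Ch.bot_anti j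
      have c3 : q'.bot ≤ c.top := Ch.le_top (j' (j q'.bot_mem))
      have m := (sD k).1
      have e1 := he.bot_bot ((dom_top (M := Inn A) m).mono c3) c2 g.1
      have e2 := he.add m (Ch.bot_anti c2) (Ch.bot_le (c1 c.bot.top_mem))
        (Ch.top_mono (c1.trans (c2.trans c3)))
      show e q.bot.bot c.bot.top = e q'.bot.bot c.bot.top
      omega
  let W : Set P := {x | Ch.pt x ∈ V}
  have wo : ∀ x ∈ W, x ∈ Om (Inn A) ∧ x ∉ A := fun x a => by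
    simpa using (⟨(v1.sub a).1, (v1.sub a).2.1⟩ : _ ∧ _)
  have ns : ∀ x ∈ W, ∀ b ∈ Fr A, ¬ x ≤ b := fun x a b hb l => by
    obtain ⟨i, i1, i2, i3⟩ := (th.inn b hb).ne
    obtain ⟨K, a1, a2, a3⟩ := cell l i2 x (Or.inl rfl)
    refine d2 ⟨K, inD K (by rw [a2, Ch.top_tr]; exact ⟨i1, i3⟩) (a1 ▸ a), _, K.bot_mem, _, a3,
      Ch.bot_le a3, fun j => ?_, ?_⟩
    · exact (show b ∈ Inn A by simpa using j).2 hb
    · simp only [pb, a1, Ch.top_pt, Ch.top_pr]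
      exact (rm_pos hA (dp_hi ⟨i1, i3⟩ l i2)).2 ⟨(wo x a).2, hb.1⟩
  have na : ∀ x ∈ W, ∀ y ∈ Om (Inn A), Cm x y → y ∉ A := fun x a y b k j => by
    rcases k with k | k
    · exact ns x a y (by_contra fun n => b.1 ⟨j, n⟩) k
    · obtain ⟨-, u, hu, l⟩ := (wo x a).1
      exact (wo x a).2 (hA.out j hu.1 ⟨k, l⟩)
  have edge : ∀ u v (l : u ≤ v), v ∈ Om (Inn A) → v ∉ A → (u ∈ W ∨ v ∈ W) →
      Ch.pr u v l ∉ Gb (Inn A) e F → u ∈ W ∧ v ∈ W := fun u v l a b c n => by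
    have m : Ch.pr u v l ∈ W1 A e F := ⟨by simpa using a, by simpa using b, n⟩
    have : Ch.pr u v l ∈ V := c.elim
      (fun c => v1.clopen c m (Or.inl (Ch.pt_le.2 (by simp))))
      fun c => v1.clopen c m (Or.inl (Ch.pt_le.2 (by simp)))
    exact ⟨vl (Ch.pt_le.2 (by simp)) this, vl (Ch.pt_le.2 (by simp)) this⟩
  have jump : ∀ u v (l : u ≤ v), v ∈ Om (Inn A) → Ch.pr u v l ∈ Gb (Inn A) e F → e u v = 1 :=
    fun u v l ⟨_, i, hi, l'⟩ g => by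
      have := he.le1 hi l l'
      have := g.1
      simp only [Ch.bot_pr, Ch.top_pr] at this
      omega
  have gbe : ∀ q ∈ Gb (Inn A) e F, Ch.pr _ _ q.bot_le_top ∈ Gb (Inn A) e F :=
    fun q ⟨a, c, c1, c2⟩ => ⟨by simpa using a, c, c1, (Ch.pr_le _ q.bot_mem q.top_mem).trans c2⟩
  have VW : V = Cq W := Set.ext fun c => ⟨fun a x hx => vl (Ch.pt_le.2 hx) a, fun a =>
    v1.clopen (a _ c.top_mem) ⟨(wo _ (a _ c.top_mem)).1, (wo _ (a _ c.top_mem)).2, fun g =>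
      one _ _ _ (a _ c.bot_mem) (a _ c.top_mem) (gbe c g)⟩ (Or.inl (Ch.pt_le.2 c.top_mem))⟩
  have wsW := ws_sr inn_up hN (W := W) fun x a => (wo x a).1
  have cW : Conn W := fun x a y b => by
    simpa using (v1.conn _ a _ b).map (F := W) (f := Ch.top) fun c hc d hd l =>
      Rch.of_cm (vl (Ch.pt_le.2 c.top_mem) hc) (vl (Ch.pt_le.2 d.top_mem) hd)
        (Or.inl (Ch.top_mono l))
  refine ⟨W, fun x a => (wo x a).1, wsW.conn_iff.2 cW, by rw [wsW.eu_eq, ← eu_cq, ← VW, euV],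
    fun x a y b n => ⟨fun l => jump x y l b (by_contra fun g =>
      n (edge x y l b (na x a y b (Or.inl l)) (Or.inl a) g).2), fun l => jump y x l (wo x a).1
        (by_contra fun g => n (edge y x l (wo x a).1 (wo x a).2 (Or.inr a) g).1)⟩, ?_,
    Or.inr fun x a y b k f hf l => ?_⟩
  · have g := gmb _ l1
    have c1 : K₀.bot ≤ L₀.bot := Ch.bot_anti l2
    have xW : K₀.bot.top ∈ W := vl (Ch.pt_le.2 K₀.bot.top_mem) (botV _ k1)
    have t : L₀.bot.top ∉ Inn A := fun j =>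
      l1.2.1 (hF.clopen l1.2.2 ⟨j, g.1⟩ (Or.inr L₀.bot_le_top))
    have o : ∀ y ∈ L₀.bot.1, y ∈ Om (Inn A) := fun y hy =>
      ⟨fun j => t (inn_up (Ch.le_top hy) j), _, (hF.sub l1.2.2).1,
        Ch.le_top (L₀.bot_le_top hy)⟩
    by_cases j : L₀.bot.bot ∈ W
    · exact ⟨_, xW, _, o _ L₀.bot.top_mem, fun i => one _ _ _ j i (gbe _ g),
        Or.inl (Ch.top_mono c1)⟩
    · exact ⟨_, xW, _, o _ L₀.bot.bot_mem, j, Or.inr (Ch.bot_le (c1 K₀.bot.top_mem))⟩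
  · rcases k with k | k
    · exact ns x a f hf (k.trans l)
    have g : Ch.pr y x k ∈ Gb (Inn A) e F := by_contra fun g =>
      ns y (edge y x k (wo x a).1 (wo x a).2 (Or.inr a) g).1 f hf l
    obtain ⟨-, i, hi, l'⟩ := (wo x a).1
    obtain ⟨n, n1, n2, n3, -, -, n4⟩ := vt.vert y x b.1 (dp_hi hi k l')
      (by simpa using g.1)
    obtain ⟨f', hf', l2⟩ := n4 ⟨f, hf, l⟩
    obtain ⟨j, j1, j2, j3⟩ := (th.inn f' hf').ne
    have g1 := gb_up he inn_up hN hF g (c := Ch.tr y n x n1 n2)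
      (Ch.pr_le _ (by simp [Ch.mem_tr]) (by simp [Ch.mem_tr]))
      ((dom_up inn_up).2 ⟨i, hi, by rwa [Ch.top_tr]⟩)
    have g2 : Ch.pr y n n1 ∈ Gb (Inn A) e F := let ⟨_, c, c1, c2⟩ := g1
      ⟨by simpa using n3, c, c1,
        (Ch.pr_le _ (by simp [Ch.mem_tr]) (by simp [Ch.mem_tr])).trans c2⟩
    have t : (Ch.tr y n f' n1 l2).top ≤ j := by rwa [Ch.top_tr]
    exact hfr _ (gb_mem he inn_up hN hF g2 (c := tp _ j t)
      ((Ch.pr_le _ (by simp [Ch.mem_tr]) (by simp [Ch.mem_tr])).trans (le_tp _ _ _))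
      (by simpa using ⟨j1, j3⟩)) f' (by simp [Ch.mem_tr]) hf'

end

theorem negMStmt : NegMStmt := fun _ _ _ st he vt hF h1 tc hfr =>
  negM_core st.conv (Sup43.good_inn st.toGood st.thick) st.thick (Sup43.sf_inn st.sfm)
    (Sup43.max_inn st.toTaut) he vt hF h1 tc hfr

end Crest.Agent.X212.Hp13
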