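import Crest.Agent.X212.Sm10.Mv3c_Mg
import Crest.Agent.X212.Kn44.N1
import Crest.Agent.X212.Kh11.Bas2_Mg
import Crest.Agent.X212.Ind26.Top
import Crest.Agent.X212.Alg36.NegP2

/-!
# X212 / Hp13 (helper13): P1 (Haken finiteness) assembled
-/

set_option autoImplicit false

open Classical

namespace Crest.Agent.X212.Hp13

open Crest.Agent.X212.Alg36 Cut21
open Crest.Agent.X212.Hk St29.E1

theorem mv1 : Mv1Stmt := Mv42.mv1 gluStmt
theorem mv2 : Mv2Stmt := mv2Stmt Mv42.mvW mv1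
theorem mv3 : Mv3Stmt :=
  Sm10.Mv.mv3Stmt revStmt nmStmt dxStmt extStmt Inn9.circStmt ic Sl43.slStmt traS mv1 mv2
theorem fam : FamStmt := Sm10.Mv.famStmt mv1 mv2 mv3
theorem nf0 : Nf0Stmt := H7.nf0Stmt nmStmt
theorem tc1 : Tc1Stmt := Kh4.tc1 brgStmt nmStmt Mv42.mvW mv1
theorem tc2 : Tc2Stmt := Tcc1.tc2 revStmt tc1
theorem tc3 : Tc3Stmt := Tcc1.tc3 tc1 nmStmt Mv42.mvW
theorem dd : DdStmt :=
  Dd39.ddStmt extStmt Sl43.slStmt tc1 tc2 traD Inn9.circStmt Hd34.Pc.pcStmt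
theorem hbs : HbsStmt := Hbs46.hbsStmt extStmt Sl43.slStmt tc1 tc2 dd
theorem birth (h3 : Tc3Stmt) : BirthStmt :=
  Bi26.birthStmt nmStmt ic traD mv1 mv2 tc1 h3 (Sm25.outStmt nmStmt Mcg32.degStmt tc1 h3) dd
    (Mcg32.pushStmt (nbhStmt nmStmt) mv1 mv2 mv3)
theorem n1 : N1Stmt :=
  Kn44.n1Stmt nmStmt Inn9.innStmt Hd34.Pc.pcStmt Inn9.capStmt swsStmt nf0
theorem red1 : Red1Stmt := Kn44.red1Stmt (ballStmt nmStmt) fam
theorem red2 : Red2Stmt := Sm10.Mv.red2Stmt gluStmt (nbhStmt nmStmt) fam nf0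

/-- **Kneser-Haken finiteness** -/
theorem kh_le (hc : CountStmt) {P : Type} [PartialOrder P] [Fintype P] {Y : Set P} {k : ℕ}
    (a b : ℕ) : ∀ t f U G V, KH Y t f k U G V → ncmp ((⋃ j, G j) ∩ Sk f 2) = a →
      ncmp ((⋃ j, G j) ∩ Sk f 3) = b → k ≤ Fintype.card (Ch P) ^ 2 := by
  induction a using Nat.strong_induction_on generalizing b with
  | _ a iha =>
  induction b using Nat.strong_induction_on with
  | _ b ihb =>
  intro t f U G V h e1 e2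
  rcases n1 P Y t f k U G V h with n | ⟨i, X, u, Z, a1, a2⟩
  · by_cases m : N2 f (⋃ j, G j)
    · exact hc P Y t f k U G V h n m
    · simp only [N2, not_forall, not_not] at m
      obtain ⟨σ, ρ, α, m⟩ := m
      obtain ⟨t', f', U', G', V', h', l⟩ := red2 P Y t f k U G V σ ρ α h n m
      exact iha _ (e1 ▸ l) _ t' f' U' G' V' h' rfl rfl
  · obtain ⟨t', f', U', G', V', h', l, l'⟩ := red1 P Y t f k U G V i X u Z h a1 a2
    rcases l.eq_or_lt with l | l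
    · exact ihb _ (e2 ▸ l') t' f' U' G' V' h' (l.trans e1) rfl
    · exact iha _ (e1 ▸ l) _ t' f' U' G' V' h' rfl rfl

theorem has_bdd (hc : CountStmt) {P : Type} [PartialOrder P] [Fintype P] {Y : Set P} (h : Amb Y) :
    BddAbove {k | HasFm Y k} :=
  ⟨_, fun _ ⟨t, f, a, U, G, V, b⟩ => kh_le hc _ _ t f U G V ⟨h, a, b⟩ rfl rfl⟩

theorem has_zero {P : Type} [PartialOrder P] [Fintype P] (Y : Set P) : HasFm Y 0 :=
  ⟨_, _, Tw.refl _, Fin.elim0, Fin.elim0, Fin.elim0, fun i => i.elim0, fun i => i.elim0,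
    fun i => i.elim0⟩

theorem desc_sd {s t : St} {f : t.P → s.P} (h : Desc s t f) : ∃ g, Desc s.sd t.sd g := by
  induction h with
  | refl => exact ⟨_, Desc.refl⟩
  | step _ ih => exact let ⟨_, k⟩ := ih; ⟨_, k.step⟩

theorem jk_desc {s t : St} {f : t.P → s.P} {z : s.P → s.P → ℤ} (d : Desc s t f) (h : JK s.A z) :
    JK t.A (pb f z) := by
  induction d with
  | refl => exact h
  | step _ ih => exact fun _ _ k l => ih _ _ (k.imp id Hlf24.om_sd.1) (Ch.top_mono l)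

theorem lc_desc {s t : St} {f : t.P → s.P} {z : s.P → s.P → ℤ} (h : Desc s t f) (k : LC s.A z) :
    LC t.A (pb f z) := Hk.lc_desc k h

theorem e1h {t s' : St} {z : t.P → t.P → ℤ} {ρ : s'.P → t.P} (h : CutH t s' z ρ)
    (hs : Hs (Yo t.A) z) {R : Type} [PartialOrder R] {car : t.P → R}
    {k : ℕ} {U G V : Fin k → Set s'.P} (hc : Monotone car) (F : Fm (car ∘ ρ) (Yo s'.A) k U G V) :
    ∃ U' G' V', Fm car (Yo t.A) k U' G' V' ∧ ∀ j, Flat (G' j) z := by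
  have S : Sit ρ _ _ _ := ⟨li_yo h, Hk.amb_yo h.st, hs_low hs.s1, hs.mf, hs.icP,
    fun _ => hs_out hs.rg.up hs.s1 hs.sf⟩
  refine ⟨fun i => ρ '' U i, fun i => ρ '' G i, fun i => Yo t.A \ ρ '' (U i ∪ G i),
    ⟨fun i => S.mem traD traS ic (F.mem i) hc, fun i j n => Set.disjoint_left.2 ?_,
      fun i j n => S.np (F.mem i) (F.mem j) (F.np i j n)⟩, fun j => ?_⟩
  · rintro _ ⟨q, a, rfl⟩ c
    exact Set.disjoint_left.1 (F.dj i j n) a ((S.li.mem_img (F.mem j).sub ((F.mem i).sub a)).1 c)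
  · rintro _ ⟨p, a, rfl⟩ _ ⟨q, c, rfl⟩ l
    exact zero_yo h (S.li.mem ((F.mem j).sub a)).2 (S.li.mem ((F.mem j).sub c)).1 l

/-- a family of the cut gives a larger family -/
theorem has_succ (h3 : Tc3Stmt) {s u s' : St} {f : u.P → s.P} {z : u.P → u.P → ℤ} {π : s'.P → u.P}
    (d : Desc s u f) (h : CutH u s' z π) (hs : Hs (Yo u.A) z) (hn : ¬ DD (Yo u.A) z) {k : ℕ}
    (hk : HasFm (Yo s'.A) k) : HasFm (Yo s.A) (k + 1) := by
  obtain ⟨t₁, f₁, a, U, G, V, F⟩ := hk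
  have d1 := Tw.desc' (s := s'.sd) a
  obtain ⟨v, g, π', d2, c, e⟩ := h.cov.sd.lift d1
  obtain ⟨γ, d3⟩ := desc_sd d
  have d4 := (Desc.sd u).trans d2
  have d5 := d3.trans d2
  have h' : CutH v _ (pb (Ch.top ∘ g) z) π' := ⟨stt_desc h.st d4, stt_desc (stt_sd h.st') d1, d4.sf h.sf,
    jk_desc d4 h.jk, lc_desc d4 h.lc, h.max.desc d4, c⟩
  have e1 : Yo v.A = (Ch.top ∘ g) ⁻¹' Yo u.A := Sup43.inn_desc d4
  have F' := F.comp (φ := γ ∘ h.cov.toLift.im) (d3.mono.comp h.cov.toLift.im_mono)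
  have e2 : Yo (f₁ ⁻¹' s'.sd.A) = f₁ ⁻¹' (Ch.top ⁻¹' Yo s'.A) :=
    Sup43.inn_desc ((Desc.sd s').trans d1)
  rw [← e2, show (γ ∘ h.cov.toLift.im) ∘ f₁ = (γ ∘ g) ∘ π' from congrArg (γ ∘ ·) e.symm] at F'
  have hs' : Hs (Yo v.A) (pb (Ch.top ∘ g) z) := e1 ▸ hs.pre (t := lv0 v.P) (Tw.of_desc d4)
  obtain ⟨U', G', V', b, fl⟩ := e1h h' hs' d5.mono F'
  obtain ⟨t₃, f₃, tw, U₃, G₃, V₃, F₃⟩ := birth h3 _ _ _ _ k U' G' V' _ (Hk.amb_yo h'.st) d5.mono b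
    hs'.s1.coc (fun m => hn (DD.up (Tw.of_desc d4) (e1 ▸ m))) fun j => (fl j).exOn
  have e3 : Yo v.A = (γ ∘ g) ⁻¹' (Ch.top ⁻¹' Yo s.A) := Sup43.inn_desc ((Desc.sd s).trans d5)
  rw [e3] at F₃
  exact ⟨t₃, _, (Tw.of_desc d5).trans tw, U₃, G₃, V₃, F₃⟩

/-- **P1** -/
theorem p1_of (h3 : Tc3Stmt) (hc : CountStmt) : Ind26.P1Stmt (par' Pt30.HBo) := by
  refine ⟨fun s => sSup {k | HasFm (Yo s.A) k}, fun s hs => ?_⟩
  have am := Hk.amb_yo hs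
  by_cases k : ADD (Yo s.A)
  · exact Or.inl (Pt30.hby hs (hbs _ _ am k))
  simp only [ADD, not_forall] at k
  obtain ⟨ζ₀, c0, n0⟩ := k
  obtain ⟨ζ, c1, e1⟩ := Nice.exists_coc hs.nice
    (cocOn_mono c0 fun _ a => Pt30.ex_inn hs.thick a)
  have n1 : ¬ DD (Yo s.A) ζ := fun m => n0 (m.congr (((nmStmt _).1 _ am.toRg).2.1.ex
    (cocOn_sub c0 ((coc_iff am.up).2 (c1.mono Sup43.inn_sub)))
    (Flat.exOn fun x a y b l => by simp [pb, e1 x a.1 y b.1 l])))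
  refine Or.inr ⟨s, id, ζ, Desc.refl, c1, fun s' ⟨u, f, z, π, d, ⟨g, e⟩, m, _, p, c, j⟩ => ?_⟩
  have h : CutH u s' z π := ⟨stt_desc hs d, j, p.nf.sf, p.nf.jk, p.lc, m, c⟩
  refine Nat.lt_of_succ_le (le_csSup (has_bdd hc am) (has_succ h3 d h (cut_hs h p.nf.cp p.vm)
    (fun q => n1 (DD.up (Tw.of_desc d) ?_)) (Nat.sSup_mem ⟨0, has_zero _⟩ (has_bdd hc (Hk.amb_yo j)))))
  rw [← Sup43.inn_desc d]
  refine q.congr ⟨-g, fun x _ y b l => ?_⟩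
  have := e x y (((dp_iff Sup43.inn_up).2 ⟨l, b⟩).mono Sup43.inn_sub)
  simp only [Pi.sub_apply, Pi.add_apply, Pi.neg_apply, cb] at this ⊢
  omega

/-- **P1** from the count -/
theorem p1_cnt (hc : CountStmt) : Ind26.P1Stmt (par' Pt30.HBo) := p1_of tc3 hc

/-- the hierarchy from the count -/
theorem hH_cnt (hc : CountStmt) : ∀ c, Stt c → ∃ t f, Desc c t f ∧ Ind26.Hier t :=
  Ind26.hH_np (p1_cnt hc) negPStmt

end Crest.Agent.X212.Hp13
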