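import Crest.Agent.X212.Hp13.Defs

-- ▼ part X212/Hp13/Bas
section

/-!
# X212 / Hp13 (helper13): elementary API (chains, cocycles, pull back, descendants, components)
-/

set_option autoImplicit false
set_option linter.unusedSectionVars false

open Finset Classical

noncomputable section

namespace Crest.Agent.X212.Hp13

section basic

variable {P Q G : Type} [PartialOrder P] [PartialOrder Q] [AddCommGroup G] {A : Set P}

theorem Cm.rfl {x : P} : Cm x x := Or.inl le_rfl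
theorem Cm.symm {x y : P} (h : Cm x y) : Cm y x := Or.symm h
theorem Cm.map {f : Q → P} (hf : Monotone f) {x y : Q} (h : Cm x y) : Cm (f x) (f y) :=
  h.imp (fun h => hf h) fun h => hf h

theorem isChain_iff {c : Finset P} : IsChain (· ≤ ·) (c : Set P) ↔ ∀ x ∈ c, ∀ y ∈ c, Cm x y :=
  ⟨fun h _ hx _ hy => h.total (mem_coe.2 hx) (mem_coe.2 hy), fun h x hx y hy _ => h x hx y hy⟩

namespace Ch

theorem cm (c : Ch P) {x y : P} (hx : x ∈ c.1) (hy : y ∈ c.1) : Cm x y := c.total hx hy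

/-- a chain from a finset -/
def mk' (c : Finset P) (h : c.Nonempty) (h' : ∀ x ∈ c, ∀ y ∈ c, Cm x y) : Ch P :=
  ⟨c, h, isChain_iff.2 h'⟩

/-- a nonempty subset of a chain -/
def sub (c : Ch P) (d : Finset P) (h : d.Nonempty) (h' : d ⊆ c.1) : Ch P :=
  mk' d h fun _ hx _ hy => c.cm (h' hx) (h' hy)

/-- insert a comparable point -/
def ins (c : Ch P) (a : P) (h : ∀ x ∈ c.1, Cm a x) : Ch P :=
  mk' (insert a c.1) (insert_nonempty _ _) fun x hx y hy => by
    rcases mem_insert.1 hx with e | hx' <;> rcases mem_insert.1 hy with e' | hy'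
    exacts [e ▸ e' ▸ Cm.rfl, e ▸ h _ hy', e' ▸ (h _ hx').symm, c.cm hx' hy']

@[simp] theorem ins_val (c : Ch P) (a : P) (h : ∀ x ∈ c.1, Cm a x) :
    (c.ins a h).1 = insert a c.1 := rfl
@[simp] theorem sub_val (c : Ch P) (d : Finset P) (h : d.Nonempty) (h' : d ⊆ c.1) :
    (c.sub d h h').1 = d := rfl
theorem le_ins (c : Ch P) (a : P) (h : ∀ x ∈ c.1, Cm a x) : c ≤ c.ins a h := subset_insert _ _
theorem sub_le (c : Ch P) (d : Finset P) (h : d.Nonempty) (h' : d ⊆ c.1) : c.sub d h h' ≤ c := h'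
theorem pt_le {c : Ch P} {x : P} : pt x ≤ c ↔ x ∈ c.1 := singleton_subset_iff

/-- the chain of a pair -/
def pr (x y : P) (h : x ≤ y) : Ch P := (pt y).ins x fun _ hw => Or.inl (mem_singleton.1 hw ▸ h)

@[simp] theorem pr_val (x y : P) (h : x ≤ y) : (pr x y h).1 = {x, y} := rfl
@[simp] theorem top_pr (x y : P) (h : x ≤ y) : (pr x y h).top = y :=
  top_eq (by simp) (by simp [h])
@[simp] theorem bot_pr (x y : P) (h : x ≤ y) : (pr x y h).bot = x :=
  bot_eq (by simp) (by simp [h])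

/-- image under a monotone map -/
def img (f : Q → P) (hf : Monotone f) (d : Ch Q) : Ch P :=
  mk' (d.1.image f) (d.2.1.image f) fun x hx y hy => by
    obtain ⟨a, ha, rfl⟩ := mem_image.1 hx
    obtain ⟨b, hb, rfl⟩ := mem_image.1 hy
    exact (d.cm ha hb).map hf

theorem mem_img {f : Q → P} {hf : Monotone f} {d : Ch Q} {x : P} :
    x ∈ (img f hf d).1 ↔ ∃ a ∈ d.1, f a = x := mem_image

theorem top_img {f : Q → P} (hf : Monotone f) (d : Ch Q) : (img f hf d).top = f d.top :=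
  top_eq (mem_img.2 ⟨_, d.top_mem, rfl⟩) fun _ hx =>
    let ⟨_, ha, e⟩ := mem_img.1 hx; e ▸ hf (le_top ha)

theorem bot_img {f : Q → P} (hf : Monotone f) (d : Ch Q) : (img f hf d).bot = f d.bot :=
  bot_eq (mem_img.2 ⟨_, d.bot_mem, rfl⟩) fun _ hx =>
    let ⟨_, ha, e⟩ := mem_img.1 hx; e ▸ hf (bot_le ha)

theorem img_mono {f : Q → P} (hf : Monotone f) : Monotone (img f hf) :=
  fun _ _ h => image_subset_image h

theorem card_pos (c : Ch P) : 0 < c.1.card := c.2.1.card_pos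
theorem card_lt {c d : Ch P} (h : c < d) : c.1.card < d.1.card :=
  card_lt_card (Finset.ssubset_iff_subset_ne.2 ⟨h.le, fun e => h.ne (ext e)⟩)
theorem sg_pt (x : P) : (pt x).sg = -1 := by simp [sg]
theorem sg_sq (c : Ch P) : c.sg * c.sg = 1 := by
  rw [sg, ← pow_add, ← two_mul, pow_mul]; simp
theorem sg_ins (c : Ch P) {a : P} (h : ∀ x ∈ c.1, Cm a x) (ha : a ∉ c.1) :
    (c.ins a h).sg = -c.sg := by
  simp [sg, card_insert_of_notMem ha, pow_succ]

end Ch

theorem mt_pt {x : P} : Mt A (Ch.pt x) ↔ x ∈ A := by simp [Mt]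

theorem mt_img {f : Q → P} (hf : Monotone f) {d : Ch Q} : Mt A (Ch.img f hf d) ↔ Mt (f ⁻¹' A) d :=
  ⟨fun ⟨_, hx, h⟩ => let ⟨a, ha, e⟩ := Ch.mem_img.1 hx; ⟨a, ha, by rwa [Set.mem_preimage, e]⟩,
    fun ⟨a, ha, h⟩ => ⟨f a, Ch.mem_img.2 ⟨a, ha, rfl⟩, h⟩⟩

theorem Dom.img {f : Q → P} (hf : Monotone f) {d : Ch Q} (h : Dom (f ⁻¹' A) d) :
    Dom A (Ch.img f hf d) :=
  let ⟨a, ha, h⟩ := h
  ⟨f a, ha, fun _ hx => let ⟨b, hb, e⟩ := Ch.mem_img.1 hx; e ▸ (h b hb).map hf⟩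

theorem dom_iff {c : Ch P} : Dom A c ↔ ∃ d, c ≤ d ∧ Mt A d :=
  ⟨fun ⟨a, ha, h⟩ => ⟨c.ins a h, c.le_ins a h, a, mem_insert_self _ _, ha⟩,
    fun ⟨_, h, hd⟩ => hd.dom.mono h⟩

theorem Dp.le {x y : P} (h : Dp A x y) : x ≤ y := h.1
theorem Dp.of_left {x y : P} (hx : x ∈ A) (h : x ≤ y) : Dp A x y := ⟨h, x, hx, Cm.rfl, Or.inl h⟩
theorem Dp.of_right {x y : P} (hy : y ∈ A) (h : x ≤ y) : Dp A x y := ⟨h, y, hy, Or.inr h, Cm.rfl⟩
theorem Dp.mono {B : Set P} (hB : A ⊆ B) {x y : P} (h : Dp A x y) : Dp B x y :=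
  let ⟨h, a, ha, h'⟩ := h; ⟨h, a, hB ha, h'⟩
theorem Dp.map {f : Q → P} (hf : Monotone f) {x y : Q} (h : Dp (f ⁻¹' A) x y) :
    Dp A (f x) (f y) :=
  let ⟨h, a, ha, h1, h2⟩ := h; ⟨hf h, f a, ha, h1.map hf, h2.map hf⟩
theorem dom_pr {x y : P} (h : x ≤ y) : Dom A (Ch.pr x y h) ↔ Dp A x y := by
  simp [Dom, Dp, h]
theorem Dom.bt {c : Ch P} (h : Dom A c) : Dp A c.bot c.top := h.dp c.bot_mem c.top_mem c.bot_le_top
theorem Mt.bt {c : Ch P} (h : Mt A c) : Dp A c.bot c.top := h.dom.bt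

/-! ### cocycles -/

variable {z z' w : P → P → G}

theorem EqD.rfl : EqD A z z := fun _ _ _ => Eq.refl _
theorem EqD.symm (h : EqD A z z') : EqD A z' z := fun x y hp => (h x y hp).symm
theorem EqD.trans (h : EqD A z z') (h' : EqD A z' w) : EqD A z w :=
  fun x y hp => (h x y hp).trans (h' x y hp)
theorem EqD.mono {B : Set P} (h : EqD B z z') (hB : A ⊆ B) : EqD A z z' :=
  fun x y hp => h x y (hp.mono hB)
theorem EqD.add {u u' : P → P → G} (h : EqD A z z') (h' : EqD A u u') : EqD A (z + u) (z' + u') :=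
  fun x y hp => by simp only [Pi.add_apply, h x y hp, h' x y hp]
theorem EqD.pb {f : Q → P} (hf : Monotone f) (h : EqD A z z') : EqD (f ⁻¹' A) (pb f z) (pb f z') :=
  fun _ _ hp => h _ _ (hp.map hf)

theorem Coc.self (h : Coc A z) {a x : P} (ha : a ∈ A) (hx : Cm a x) : z x x = 0 := by
  have := h a ha x x x le_rfl le_rfl hx hx hx
  simpa using this
theorem Coc.mono {B : Set P} (h : Coc B z) (hB : A ⊆ B) : Coc A z := fun a ha => h a (hB ha)
theorem Coc.congr (h : Coc A z) (e : EqD A z' z) : Coc A z' := fun a ha x y u h1 h2 c1 c2 c3 => by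
  rw [e x u ⟨h1.trans h2, a, ha, c1, c3⟩, e x y ⟨h1, a, ha, c1, c2⟩, e y u ⟨h2, a, ha, c2, c3⟩]
  exact h a ha x y u h1 h2 c1 c2 c3
theorem coc_cb (g : P → G) : Coc A (cb g) := fun _ _ _ _ _ _ _ _ _ _ => by simp [cb]
theorem coc_zero : Coc A (0 : P → P → G) := fun _ _ _ _ _ _ _ _ _ _ => by simp
theorem Coc.add (h : Coc A z) (h' : Coc A z') : Coc A (z + z') :=
  fun a ha x y u h1 h2 c1 c2 c3 => by
    simp only [Pi.add_apply, h a ha x y u h1 h2 c1 c2 c3, h' a ha x y u h1 h2 c1 c2 c3]; abel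
theorem Coc.neg (h : Coc A z) : Coc A (-z) := fun a ha x y u h1 h2 c1 c2 c3 => by
  simp only [Pi.neg_apply, h a ha x y u h1 h2 c1 c2 c3]; abel
theorem Coc.sub (h : Coc A z) (h' : Coc A z') : Coc A (z - z') := by
  rw [sub_eq_add_neg]; exact h.add h'.neg
theorem Coc.zsmul (h : Coc A z) (k : ℤ) : Coc A (k • z) := fun a ha x y u h1 h2 c1 c2 c3 => by
  simp only [Pi.smul_apply, h a ha x y u h1 h2 c1 c2 c3, smul_add]
theorem Coc.sum {ι : Type} (s : Finset ι) {u : ι → P → P → G} (h : ∀ i ∈ s, Coc A (u i)) :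
    Coc A (∑ i ∈ s, u i) := sum_induction u (Coc A) (fun _ _ => Coc.add) coc_zero h
theorem Coc.pb {f : Q → P} (hf : Monotone f) (h : Coc A z) : Coc (f ⁻¹' A) (pb f z) :=
  fun a ha _ _ _ h1 h2 c1 c2 c3 =>
    h (f a) ha _ _ _ (hf h1) (hf h2) (c1.map hf) (c2.map hf) (c3.map hf)

theorem cb_add (g g' : P → G) : cb (g + g') = cb g + cb g' := by
  funext x y; simp only [cb, Pi.add_apply]; abel
theorem cb_neg (g : P → G) : cb (-g) = -cb g := by
  funext x y; simp only [cb, Pi.neg_apply]; abel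
theorem cb_sub (g g' : P → G) : cb (g - g') = cb g - cb g' := by
  funext x y; simp only [cb, Pi.sub_apply]; abel
theorem cb_zero : cb (0 : P → G) = 0 := by funext x y; simp [cb]
theorem pb_cb (f : Q → P) (g : P → G) : pb f (cb g) = cb (g ∘ f) := rfl
theorem pb_add (f : Q → P) : pb f (z + z') = pb f z + pb f z' := rfl
theorem pb_comp {R : Type} (f : Q → P) (g : R → Q) : pb (f ∘ g) z = pb g (pb f z) := rfl
theorem pb_id : pb id z = z := rfl

theorem Eqv.of_eqD (h : EqD A z z') : Eqv A z z' :=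
  ⟨0, fun _ _ => rfl, by rw [cb_zero, add_zero]; exact h.symm⟩
theorem Eqv.rfl : Eqv A z z := Eqv.of_eqD EqD.rfl
theorem Eqv.symm (h : Eqv A z z') : Eqv A z' z := by
  obtain ⟨g, h0, h⟩ := h
  refine ⟨-g, fun x hx => by simp [h0 x hx], fun x y hp => ?_⟩
  simp only [Pi.add_apply, h x y hp, cb, Pi.neg_apply]; abel
theorem Eqv.trans (h : Eqv A z z') (h' : Eqv A z' w) : Eqv A z w := by
  obtain ⟨g, h0, h⟩ := h
  obtain ⟨g', h0', h'⟩ := h'
  refine ⟨g + g', fun x hx => by simp [h0 x hx, h0' x hx], fun x y hp => ?_⟩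
  simp only [Pi.add_apply, h x y hp, h' x y hp, cb]; abel
theorem Eqv.add {u u' : P → P → G} (h : Eqv A z z') (h' : Eqv A u u') :
    Eqv A (z + u) (z' + u') := by
  obtain ⟨g, h0, h⟩ := h
  obtain ⟨g', h0', h'⟩ := h'
  refine ⟨g + g', fun x hx => by simp [h0 x hx, h0' x hx], fun x y hp => ?_⟩
  simp only [Pi.add_apply, h x y hp, h' x y hp, cb]; abel
theorem eqv_add_cb {g : P → G} (h : ∀ x, x ∉ A → g x = 0) : Eqv A z (z + cb g) := ⟨g, h, EqD.rfl⟩
theorem Eqv.pb {f : Q → P} (hf : Monotone f) (h : Eqv A z z') :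
    Eqv (f ⁻¹' A) (pb f z) (pb f z') :=
  let ⟨g, h0, h⟩ := h; ⟨g ∘ f, fun x hx => h0 (f x) hx, h.pb hf⟩
theorem Eqv.coc (h : Eqv A z z') (hz : Coc A z) : Coc A z' :=
  let ⟨g, _, h⟩ := h; (hz.add (coc_cb g)).congr h
theorem Eqv.off (h : Eqv A z z') {x y : P} (hp : Dp A x y) (hx : x ∉ A) (hy : y ∉ A) :
    z x y = z' x y := by
  obtain ⟨g, h0, h⟩ := h
  simp [h x y hp, cb, h0 x hx, h0 y hy]
/-- with `Bnd`, the class is determined by the boundary data -/
theorem Bnd.eqv (hb : Bnd G A) (hz : Coc A z) (hz' : Coc A z')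
    (h : ∀ x y, Dp A x y → x ∉ A → y ∉ A → z x y = z' x y) : Eqv A z z' := by
  have := (hb (z' - z) (hz'.sub hz) fun x y hp hx hy => by simp [h x y hp hx hy]).add
    (Eqv.rfl (z := z))
  rwa [zero_add, sub_add_cancel] at this

theorem Coc.rev (h : Coc A z) : Coc (Ch.top ⁻¹' A) (rev z) := by
  intro c hc x y u h1 h2 c1 c2 c3
  have k : ∀ {e : Ch P}, Cm c e → Cm c.top e.bot := fun {e} he =>
    he.elim (fun h => e.cm (h c.top_mem) e.bot_mem) fun h => c.cm c.top_mem (h e.bot_mem)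
  rw [Hp13.rev, Hp13.rev, Hp13.rev, add_comm]
  exact h _ hc _ _ _ (Ch.bot_anti h2) (Ch.bot_anti h1) (k c3) (k c2) (k c1)

/-- all points of a chain in the star of `top ⁻¹' A` are comparable with one point of `A` -/
theorem Dp.dom_top {c d : Ch P} (h : Dp (Ch.top ⁻¹' A) c d) : Dom A d := by
  obtain ⟨-, e, he, -, h2⟩ := h
  exact ⟨e.top, he, fun x hx =>
    h2.elim (fun h => d.cm (h e.top_mem) hx) fun h => e.cm e.top_mem (h hx)⟩

section mono
variable {u u' : P → P → ℤ}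

theorem Mono.congr (h : Mono A u) (e : EqD A u' u) : Mono A u' :=
  fun x y hp => e x y hp ▸ h x y hp
theorem Mono.mono {B : Set P} (h : Mono B u) (hB : A ⊆ B) : Mono A u :=
  fun x y hp => h x y (hp.mono hB)
theorem Mono.add (h : Mono A u) (h' : Mono A u') : Mono A (u + u') :=
  fun x y hp => add_nonneg (h x y hp) (h' x y hp)
theorem mono_zero : Mono A (0 : P → P → ℤ) := fun _ _ _ => le_rfl
theorem Mono.smul (h : Mono A u) {k : ℤ} (hk : 0 ≤ k) : Mono A (k • u) :=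
  fun x y hp => mul_nonneg hk (h x y hp)
theorem Mono.sum {ι : Type} (s : Finset ι) {v : ι → P → P → ℤ} (h : ∀ i ∈ s, Mono A (v i)) :
    Mono A (∑ i ∈ s, v i) := sum_induction v (Mono A) (fun _ _ => Mono.add) mono_zero h
theorem Mono.pb {f : Q → P} (hf : Monotone f) (h : Mono A u) : Mono (f ⁻¹' A) (pb f u) :=
  fun _ _ hp => h _ _ (hp.map hf)
theorem Mono.rev (h : Mono A u) : Mono (Ch.top ⁻¹' A) (rev u) := fun c d hp =>
  h _ _ (hp.dom_top.dp d.bot_mem (hp.1 c.bot_mem) (Ch.bot_anti hp.1))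
theorem mono_cb {g : P → ℤ} (h : ∀ x y, Dp A x y → g x ≤ g y) : Mono A (cb g) :=
  fun x y hp => sub_nonneg.2 (h x y hp)
theorem mono_ind {U : Set P} (h : ∀ x y, Dp A x y → x ∈ U → y ∈ U) : Mono A (cb (ind U)) :=
  mono_cb fun x y hp => by
    unfold ind
    by_cases hx : x ∈ U
    · rw [if_pos hx, if_pos (h x y hp hx)]
    · rw [if_neg hx]; split_ifs <;> norm_num

/-- inside a chain of the star the values are bounded by the range -/
theorem Mono.le_range (h : Mono A u) (hc : Coc A u) {c : Ch P} (hd : Dom A c) {x y : P}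
    (hx : x ∈ c.1) (hy : y ∈ c.1) (hxy : x ≤ y) : u x y ≤ u c.bot c.top := by
  rw [hc.add' hd c.bot_mem hx c.top_mem (Ch.bot_le hx) (Ch.le_top hx),
    hc.add' hd hx hy c.top_mem hxy (Ch.le_top hy)]
  have := h _ _ (hd.dp c.bot_mem hx (Ch.bot_le hx))
  have := h _ _ (hd.dp hy c.top_mem (Ch.le_top hy))
  omega

end mono

theorem ind_of_mem {E : Set P} {x : P} (h : x ∈ E) : ind E x = 1 := if_pos h
theorem ind_of_not {E : Set P} {x : P} (h : x ∉ E) : ind E x = 0 := if_neg h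
theorem ind_comp (E : Set P) (f : Q → P) : ind E ∘ f = ind (f ⁻¹' E) := rfl

theorem coc_Rm : Coc A (Rm A) := coc_cb _
theorem coc_Rp : Coc A (Rp A) := coc_cb _
theorem mono_Rm : Mono A (Rm A) :=
  mono_ind fun _ _ hp ⟨a, ha, h⟩ => ⟨a, ha, h.trans hp.1⟩
theorem mono_Rp (hA : A.OrdConnected) : Mono A (Rp A) :=
  mono_ind fun _ _ hp ⟨hx, a, ha, h⟩ =>
    ⟨fun hy => hx (hA.out ha hy ⟨h, hp.1⟩), a, ha, h.trans hp.1⟩
theorem Rm_eq : Rm A = Rp A + cb (ind A) := by
  rw [Rm, Rp, ← cb_add]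
  congr 1
  funext x
  by_cases hx : x ∈ A
  · simp only [ind, Pi.add_apply, Set.mem_setOf_eq, hx, not_true, false_and, if_false, if_true,
      zero_add]
    exact if_pos ⟨x, hx, le_rfl⟩
  · simp [ind, hx]
theorem eqv_Rp_Rm : Eqv A (Rp A) (Rm A) := Rm_eq (A := A) ▸ eqv_add_cb fun _ => ind_of_not
instance : IsCoc A (Rm A) := ⟨coc_Rm⟩
instance : IsCoc A (Rp A) := ⟨coc_Rp⟩

theorem convex_pre {f : Q → P} (hf : Monotone f) (hA : A.OrdConnected) : (f ⁻¹' A).OrdConnected :=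
  hA.preimage_mono hf

/-- a point comparable with a point of a convex `A` is in `A`, above `A` or below `A`;
`up_iff` decides it -/
theorem up_iff (hA : A.OrdConnected) {a x : P} (ha : a ∈ A) (h : Cm a x) :
    (∃ b ∈ A, b ≤ x) ↔ x ∈ A ∨ a ≤ x :=
  ⟨fun ⟨_, hb, hx⟩ => h.elim Or.inr fun h => Or.inl (hA.out hb ha ⟨hx, h⟩),
    fun h => h.elim (fun h => ⟨x, h, le_rfl⟩) fun h => ⟨a, ha, h⟩⟩

theorem Rm_pb {f : Q → P} (hf : Monotone f) (hA : A.OrdConnected) :
    EqD (f ⁻¹' A) (pb f (Rm A)) (Rm (f ⁻¹' A)) := by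
  have k : ∀ a ∈ f ⁻¹' A, ∀ x, Cm a x →
      ind {x | ∃ a ∈ A, a ≤ x} (f x) = ind {x | ∃ a ∈ f ⁻¹' A, a ≤ x} x := fun a ha x h => by
    have : (∃ b ∈ A, b ≤ f x) ↔ ∃ b ∈ f ⁻¹' A, b ≤ x := by
      rw [up_iff hA ha (h.map hf), up_iff (convex_pre hf hA) ha h]
      refine ⟨fun h' => h'.elim Or.inl fun h' => h.elim Or.inr fun h => Or.inl ?_,
        fun h' => h'.imp id fun h => hf h⟩
      show f x ∈ A
      rwa [le_antisymm (hf h) h']
    simp only [ind, Set.mem_setOf_eq, this]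
  rintro x y ⟨-, a, ha, h1, h2⟩
  simp only [pb, Rm, cb, k a ha x h1, k a ha y h2]

theorem Rp_pb {f : Q → P} (hf : Monotone f) (hA : A.OrdConnected) :
    EqD (f ⁻¹' A) (pb f (Rp A)) (Rp (f ⁻¹' A)) := fun x y hp => by
  have := Rm_pb hf hA x y hp
  rw [Rm_eq, Rm_eq] at this
  exact add_right_cancel this

/-! ### components -/

variable {E : Set P} {x y t : P}

theorem Rch.rfl : Rch E x x := Relation.ReflTransGen.refl
theorem Rch.trans (h : Rch E x y) (h' : Rch E y t) : Rch E x t := Relation.ReflTransGen.trans h h'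
theorem Rch.of_cm (hx : x ∈ E) (hy : y ∈ E) (h : Cm x y) : Rch E x y :=
  Relation.ReflTransGen.single ⟨hx, hy, h⟩
theorem Rch.symm (h : Rch E x y) : Rch E y x := by
  induction h with
  | refl => exact Rch.rfl
  | tail _ h2 ih => exact (Rch.of_cm h2.2.1 h2.1 h2.2.2.symm).trans ih
theorem Rch.mono {F : Set P} (hF : E ⊆ F) (h : Rch E x y) : Rch F x y := by
  induction h with
  | refl => exact Rch.rfl
  | tail _ h2 ih => exact ih.trans (Rch.of_cm (hF h2.1) (hF h2.2.1) h2.2.2)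
theorem Rch.mem (h : Rch E x y) (hx : x ∈ E) : y ∈ E := by
  induction h with
  | refl => exact hx
  | tail _ h2 _ => exact h2.2.1
theorem Rch.ind (h : Rch E x y) {p : P → Prop} (hx : p x)
    (hp : ∀ a ∈ E, ∀ b ∈ E, a ≤ b → (p a ↔ p b)) : p y := by
  induction h with
  | refl => exact hx
  | tail _ h2 ih =>
    exact h2.2.2.elim (fun h => (hp _ h2.1 _ h2.2.1 h).1 ih) fun h => (hp _ h2.2.1 _ h2.1 h).2 ih
theorem Rch.eq {γ : Type*} (h : Rch E x y) {g : P → γ}
    (hg : ∀ a ∈ E, ∀ b ∈ E, a ≤ b → g a = g b) : g x = g y :=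
  h.ind (p := fun t => g x = g t) (Eq.refl _) fun a ha b hb hab => by rw [hg a ha b hb hab]
theorem Rch.map {F : Set Q} {f : P → Q}
    (hf : ∀ x ∈ E, ∀ y ∈ E, x ≤ y → Rch F (f x) (f y)) (h : Rch E x y) : Rch F (f x) (f y) :=
  h.ind (p := fun t => Rch F (f x) (f t)) Rch.rfl fun a ha b hb hab =>
    ⟨fun h => h.trans (hf a ha b hb hab), fun h => h.trans (hf a ha b hb hab).symm⟩
theorem conn_cone {m : P} (hm : m ∈ E) (h : ∀ x ∈ E, Cm x m) : Conn E :=
  fun x hx y hy => (Rch.of_cm hx hm (h x hx)).trans (Rch.of_cm hm hy (h y hy).symm)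
theorem mem_cmp_self (hx : x ∈ E) : x ∈ cmp E x := ⟨hx, Rch.rfl⟩
theorem cmp_sub : cmp E x ⊆ E := fun _ h => h.1
theorem cmp_eq (h : Rch E x y) : cmp E x = cmp E y :=
  Set.ext fun _ => ⟨fun a => ⟨a.1, h.symm.trans a.2⟩, fun a => ⟨a.1, h.trans a.2⟩⟩
theorem IsCmp.sub {C : Set P} (h : IsCmp E C) : C ⊆ E := let ⟨_, _, e⟩ := h; e ▸ cmp_sub
theorem IsCmp.ne {C : Set P} (h : IsCmp E C) : C.Nonempty :=
  let ⟨x, hx, e⟩ := h; ⟨x, e ▸ mem_cmp_self hx⟩
theorem IsCmp.eq {C : Set P} (h : IsCmp E C) (hx : x ∈ C) : C = cmp E x := by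
  obtain ⟨y, -, rfl⟩ := h
  exact cmp_eq hx.2
theorem IsCmp.clopen {C : Set P} (h : IsCmp E C) (hx : x ∈ C) (hy : y ∈ E) (hc : Cm x y) :
    y ∈ C := h.eq hx ▸ ⟨hy, Rch.of_cm (h.sub hx) hy hc⟩
theorem Rch.in_clopen {C : Set P} (hC : ∀ x ∈ C, ∀ y ∈ E, Cm x y → y ∈ C) (hx : x ∈ C)
    (h : Rch E x y) : Rch C x y := by
  have : y ∈ C ∧ Rch C x y := by
    induction h with
    | refl => exact ⟨hx, Rch.rfl⟩
    | tail _ h2 ih =>
      have := hC _ ih.1 _ h2.2.1 h2.2.2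
      exact ⟨this, ih.2.trans (Rch.of_cm ih.1 this h2.2.2)⟩
  exact this.2
theorem IsCmp.conn {C : Set P} (h : IsCmp E C) : Conn C := fun x hx y hy =>
  Rch.in_clopen (fun _ ha _ hb hc => h.clopen ha hb hc) hx (by rw [h.eq hx] at hy; exact hy.2)
theorem isCmp_cmp (hx : x ∈ E) : IsCmp E (cmp E x) := ⟨x, hx, rfl⟩

end basic

section fin

variable {P : Type} [PartialOrder P] [Fintype P] {A : Set P} {z z' : P → P → ℤ}

theorem chi_congr (h : EqD A z z') : chi A z = chi A z' :=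
  sum_congr rfl fun c hc => by rw [h _ _ (mem_filter.1 hc).2.bt]
theorem chi_add : chi A (z + z') = chi A z + chi A z' := by
  simp only [chi, Pi.add_apply, mul_add, sum_add_distrib]
theorem chi_neg : chi A (-z) = -chi A z := by simp [chi]
theorem chi_sub : chi A (z - z') = chi A z - chi A z' := by
  rw [sub_eq_add_neg, chi_add, chi_neg, sub_eq_add_neg]
theorem chi_zero : chi A (0 : P → P → ℤ) = 0 := by simp [chi]
theorem chi_smul (k : ℤ) : chi A (k • z) = k * chi A z := by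
  simp only [chi, Pi.smul_apply, smul_eq_mul, mul_sum]
  exact sum_congr rfl fun _ _ => by ring
theorem chi_sum {ι : Type} (s : Finset ι) (u : ι → P → P → ℤ) :
    chi A (∑ i ∈ s, u i) = ∑ i ∈ s, chi A (u i) := by
  induction s using Finset.induction_on with
  | empty => simp [chi_zero]
  | insert a s ha ih => rw [sum_insert ha, sum_insert ha, chi_add, ih]
theorem crs_congr (h : EqD A z z') : crs A z = crs A z' :=
  sum_congr rfl fun c hc => by rw [h _ _ (mem_filter.1 hc).2.1.bt]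
theorem crs_add : crs A (z + z') = crs A z + crs A z' := by
  simp only [crs, Pi.add_apply, mul_add, sum_add_distrib]
theorem Eqv.crs (h : Eqv A z z') : crs A z = crs A z' :=
  sum_congr (Eq.refl _) fun c hc => by
    obtain ⟨h1, h2, h3⟩ := (mem_filter.1 hc).2
    rw [h.off h1.bt h2 h3]
theorem Sf.coc (h : Sf A z) : Coc A z := let ⟨_, h, _⟩ := h; h.coc
theorem Sf.mono (h : Sf A z) : Mono A z := h.1
theorem Sf.noCl (h : Sf A z) [IsCoc A z] : NoCl A z := let ⟨_, _, h⟩ := h; h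

end fin

/-! ### descendants -/

namespace Desc

variable {s t u : St} {f : t.P → s.P} {g : u.P → t.P}

theorem mono (h : Desc s t f) : Monotone f := by
  induction h with
  | refl => exact monotone_id
  | step _ ih => exact ih.comp Ch.top_mono

theorem A_eq (h : Desc s t f) : t.A = f ⁻¹' s.A := by
  induction h with
  | refl => rfl
  | step _ ih => exact congrArg (fun B => Ch.top ⁻¹' B) ih

theorem trans (h : Desc s t f) (h' : Desc t u g) : Desc s u (f ∘ g) := by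
  induction h' with
  | refl => exact h
  | step _ ih => exact ih.step

theorem sd (s : St) : Desc s s.sd Ch.top := Desc.step Desc.refl

theorem surj (h : Desc s t f) : Function.Surjective f := by
  induction h with
  | refl => exact Function.surjective_id
  | step _ ih => exact ih.comp fun x => ⟨Ch.pt x, Ch.top_pt x⟩

/-- the same tower for another region -/
theorem «at» (h : Desc s t f) (B : Set s.P) : Desc (s.at B) (t.at (f ⁻¹' B)) f := by
  induction h with
  | refl => exact Desc.refl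
  | step _ ih => exact ih.step

/-- induction principle for hereditary properties of a state with data -/
theorem keep {X : St → Type*} (pull : ∀ s, X s → X s.sd) (p : ∀ s, X s → Prop)
    (hp : ∀ s x, p s x → p s.sd (pull s x)) (h : Desc s t f) {x : X s} (hx : p s x) :
    ∃ y : X t, p t y := by
  induction h with
  | refl => exact ⟨x, hx⟩
  | step _ ih => exact let ⟨y, hy⟩ := ih; ⟨_, hp _ y hy⟩

end Desc

/-- the tower -/
def tw (s : St) : ℕ → (t : St) × (t.P → s.P)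
  | 0 => ⟨s, id⟩
  | n + 1 => ⟨(tw s n).1.sd, (tw s n).2 ∘ Ch.top⟩

theorem desc_tw (s : St) : ∀ n, Desc s (tw s n).1 (tw s n).2
  | 0 => Desc.refl
  | n + 1 => (desc_tw s n).step

theorem Desc.eq_tw {s t : St} {f : t.P → s.P} (h : Desc s t f) : ∃ n, tw s n = ⟨t, f⟩ := by
  induction h with
  | refl => exact ⟨0, rfl⟩
  | step _ ih => exact let ⟨n, e⟩ := ih; ⟨n + 1, by rw [tw, e]⟩

theorem tw_le (s : St) (n : ℕ) : ∀ m, ∃ g, Desc (tw s n).1 (tw s (n + m)).1 g ∧
    (tw s (n + m)).2 = (tw s n).2 ∘ g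
  | 0 => ⟨id, Desc.refl, rfl⟩
  | m + 1 => let ⟨g, h, e⟩ := tw_le s n m
    ⟨g ∘ Ch.top, h.step, by show (tw s (n + m)).2 ∘ Ch.top = _; rw [e]; rfl⟩

/-- THE TOWER IS LINEAR: two descendants have a common descendant -/
theorem Desc.common {s t t' : St} {f : t.P → s.P} {f' : t'.P → s.P} (h : Desc s t f)
    (h' : Desc s t' f') : ∃ (u : St) (g : u.P → t.P) (g' : u.P → t'.P),
      Desc t u g ∧ Desc t' u g' ∧ f ∘ g = f' ∘ g' := by
  obtain ⟨n, e⟩ := h.eq_tw
  obtain ⟨n', e'⟩ := h'.eq_tw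
  have k : ∀ {a b : St} {p : a.P → s.P} {q : b.P → s.P} {n m : ℕ}, tw s n = ⟨a, p⟩ →
      tw s (n + m) = ⟨b, q⟩ → ∃ g, Desc a b g ∧ q = p ∘ g := fun {a b p q n m} e1 e2 => by
    have := tw_le s n m
    rw [e1, e2] at this
    exact this
  rcases le_total n n' with hn | hn
  · obtain ⟨m, rfl⟩ := Nat.exists_eq_add_of_le hn
    obtain ⟨g, hg, e⟩ := k e e'
    exact ⟨t', g, id, hg, Desc.refl, e.symm⟩
  · obtain ⟨m, rfl⟩ := Nat.exists_eq_add_of_le hn
    obtain ⟨g, hg, e⟩ := k e' e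
    exact ⟨t, id, g, Desc.refl, hg, e⟩

end Crest.Agent.X212.Hp13
end
end

-- ▼ part X212/Hp13/W

/-!
# X212 / Hp13 (helper13): the weight formula and invariance of `chi` under subdivision
-/

set_option autoImplicit false
set_option linter.unusedSectionVars false

open Finset Classical

noncomputable section

namespace Crest.Agent.X212.Hp13

variable {P Q : Type} [PartialOrder P] [Fintype P] [PartialOrder Q] [Fintype Q] {A : Set P}

/-- sum over the chains with given least element -/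
def bet (a : P) : ℤ := ∑ c ∈ univ.filter (fun c : Ch P => c.bot = a), c.sg

/-- a chain through `a` is a pair (chain with top `a`, chain with bottom `a`) -/
theorem sum_through (a : P) (F G : Ch P → ℤ) (H : Ch P → ℤ)
    (hH : ∀ c c₁ c₂ : Ch P, c₁.top = a → c₂.bot = a → c.1 = c₁.1 ∪ c₂.1 → H c = F c₁ * G c₂) :
    ∑ c ∈ univ.filter (fun c : Ch P => a ∈ c.1), c.sg * H c =
      -((∑ c ∈ univ.filter (fun c : Ch P => c.top = a), c.sg * F c) *
        ∑ c ∈ univ.filter (fun c : Ch P => c.bot = a), c.sg * G c) := by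
  rw [sum_mul_sum, ← sum_product', ← sum_neg_distrib]
  symm
  have cmp : ∀ p : Ch P × Ch P, p.1.top = a → p.2.bot = a → ∀ x ∈ p.1.1, ∀ y ∈ p.2.1, x ≤ y :=
    fun p h1 h2 x hx y hy => (Ch.le_top hx).trans (h1.le.trans (h2.ge.trans (Ch.bot_le hy)))
  refine sum_bij (fun p hp => Ch.mk' (p.1.1 ∪ p.2.1) (p.1.2.1.mono subset_union_left) ?_)
    ?_ ?_ ?_ ?_
  · obtain ⟨h1, h2⟩ := mem_product.1 hp
    have k := cmp p (mem_filter.1 h1).2 (mem_filter.1 h2).2
    intro x hx y hy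
    rcases mem_union.1 hx with hx | hx <;> rcases mem_union.1 hy with hy | hy
    exacts [p.1.cm hx hy, Or.inl (k x hx y hy), Or.inr (k y hy x hx), p.2.cm hx hy]
  · intro p hp
    obtain ⟨h1, -⟩ := mem_product.1 hp
    exact mem_filter.2 ⟨mem_univ _, mem_union_left _ ((mem_filter.1 h1).2 ▸ p.1.top_mem)⟩
  · have k : ∀ p : Ch P × Ch P, p.1.top = a → p.2.bot = a →
        p.1.1 = (p.1.1 ∪ p.2.1).filter (· ≤ a) ∧ p.2.1 = (p.1.1 ∪ p.2.1).filter (a ≤ ·) := by
      intro p h1 h2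
      refine ⟨Finset.ext fun x => ?_, Finset.ext fun x => ?_⟩ <;> simp only [mem_filter, mem_union]
      · refine ⟨fun h => ⟨Or.inl h, h1 ▸ Ch.le_top h⟩, fun h => h.1.elim id fun h' => ?_⟩
        rw [le_antisymm h.2 (h2 ▸ Ch.bot_le h'), ← h1]
        exact p.1.top_mem
      · refine ⟨fun h => ⟨Or.inr h, h2 ▸ Ch.bot_le h⟩, fun h => h.1.elim (fun h' => ?_) id⟩
        rw [le_antisymm (h1 ▸ Ch.le_top h') h.2, ← h2]
        exact p.2.bot_mem
    intro p hp q hq e
    obtain ⟨h1, h2⟩ := mem_product.1 hp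
    obtain ⟨h3, h4⟩ := mem_product.1 hq
    have e' : p.1.1 ∪ p.2.1 = q.1.1 ∪ q.2.1 := congrArg Subtype.val e
    have a1 := k p (mem_filter.1 h1).2 (mem_filter.1 h2).2
    have a2 := k q (mem_filter.1 h3).2 (mem_filter.1 h4).2
    exact Prod.ext (Ch.ext (by rw [a1.1, a2.1, e'])) (Ch.ext (by rw [a1.2, a2.2, e']))
  · intro c hc
    have ha := (mem_filter.1 hc).2
    refine ⟨(c.sub (c.1.filter (· ≤ a)) ⟨a, mem_filter.2 ⟨ha, le_rfl⟩⟩ (filter_subset _ _),
      c.sub (c.1.filter (a ≤ ·)) ⟨a, mem_filter.2 ⟨ha, le_rfl⟩⟩ (filter_subset _ _)),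
      mem_product.2 ⟨mem_filter.2 ⟨mem_univ _, Ch.top_eq (mem_filter.2 ⟨ha, le_rfl⟩)
        fun x hx => (mem_filter.1 hx).2⟩, mem_filter.2 ⟨mem_univ _,
        Ch.bot_eq (mem_filter.2 ⟨ha, le_rfl⟩) fun x hx => (mem_filter.1 hx).2⟩⟩, Ch.ext ?_⟩
    show c.1.filter (· ≤ a) ∪ c.1.filter (a ≤ ·) = c.1
    rw [← filter_or, filter_true_of_mem fun x hx => c.total hx ha]
  · intro p hp
    obtain ⟨h1, h2⟩ := mem_product.1 hp
    have h1 := (mem_filter.1 h1).2
    have h2 := (mem_filter.1 h2).2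
    rw [hH _ p.1 p.2 h1 h2 rfl]
    have i : p.1.1 ∩ p.2.1 = {a} := by
      refine Finset.ext fun x => ⟨fun h => mem_singleton.2 (le_antisymm
        (h1 ▸ Ch.le_top (mem_inter.1 h).1) (h2 ▸ Ch.bot_le (mem_inter.1 h).2)), fun h => ?_⟩
      rw [mem_singleton.1 h]
      exact mem_inter.2 ⟨h1 ▸ p.1.top_mem, h2 ▸ p.2.bot_mem⟩
    have := card_union_add_card_inter p.1.1 p.2.1
    rw [i, card_singleton] at this
    have e : p.1.sg * p.2.sg = -(-1) ^ (p.1.1 ∪ p.2.1).card := by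
      rw [Ch.sg, Ch.sg, ← pow_add, ← this, pow_succ]; ring
    show _ = (-1) ^ (p.1.1 ∪ p.2.1).card * _
    linear_combination (-(F p.1 * G p.2)) * e

theorem Mf.eps_bet {d : ℕ} (h : Mf d A) {a : P} (ha : a ∈ A) : eps a * bet a = (-1) ^ (d + 1) := by
  have := sum_through a (fun _ => 1) (fun _ => 1) (fun _ => 1) fun _ _ _ _ _ _ => by simp
  simp only [mul_one] at this
  rw [← h.eul (Ch.pt a) (mt_pt.2 ha), eps, bet, neg_mul, ← this]
  exact sum_congr (filter_congr fun c _ => Ch.pt_le.symm) fun _ _ => rfl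

theorem Mf.eps_sq {d : ℕ} (h : Mf d A) {a : P} (ha : a ∈ A) : eps a * eps a = 1 := by
  have : IsUnit (eps a * bet a) := h.eps_bet ha ▸ (isUnit_one.neg.pow _)
  rcases Int.isUnit_iff.1 (isUnit_of_mul_isUnit_left this) with e | e <;> simp [e]

theorem Mf.bet_eq {d : ℕ} (h : Mf d A) {a : P} (ha : a ∈ A) : bet a = (-1) ^ (d + 1) * eps a := by
  linear_combination (eps a) * h.eps_bet ha - (bet a) * h.eps_sq ha

theorem sum_top (F : P → ℤ) : ∑ c : Ch P, c.sg * F c.top = -∑ a, eps a * F a := by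
  rw [← sum_fiberwise (s := univ) (g := Ch.top), ← sum_neg_distrib]
  refine sum_congr rfl fun a _ => ?_
  rw [eps, neg_mul, neg_neg, sum_mul]
  exact sum_congr rfl fun c hc => by rw [(mem_filter.1 hc).2]

theorem sum_bot (F : P → ℤ) : ∑ c : Ch P, c.sg * F c.bot = ∑ a, bet a * F a := by
  rw [← sum_fiberwise (s := univ) (g := Ch.bot)]
  refine sum_congr rfl fun a _ => ?_
  rw [bet, sum_mul]
  exact sum_congr rfl fun c hc => by rw [(mem_filter.1 hc).2]

/-- **W**, any dimension -/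
theorem chi_cb' {d : ℕ} (h : Mf d A) {g : P → ℤ} (hg : ∀ x, x ∉ A → g x = 0) :
    chi A (cb g) = -(1 + (-1) ^ (d + 1)) * ∑ a, eps a * g a := by
  have e : chi A (cb g) = ∑ c : Ch P, c.sg * g c.top - ∑ c : Ch P, c.sg * g c.bot := by
    rw [← sum_sub_distrib, chi, sum_filter]
    refine sum_congr rfl fun c _ => ?_
    split_ifs with hc
    · simp only [cb]; ring
    · rw [hg c.top fun k => hc ⟨_, c.top_mem, k⟩, hg c.bot fun k => hc ⟨_, c.bot_mem, k⟩]; ring
  rw [e, sum_top, sum_bot, ← sum_neg_distrib, ← sum_sub_distrib, mul_sum]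
  refine sum_congr rfl fun a _ => ?_
  by_cases ha : a ∈ A
  · rw [h.bet_eq ha]; ring
  · rw [hg a ha]; ring

/-- **W** -/
theorem chi_cb (h : Mf 3 A) {g : P → ℤ} (hg : ∀ x, x ∉ A → g x = 0) :
    chi A (cb g) = -2 * ∑ a, eps a * g a := by
  rw [chi_cb' h hg]; norm_num

/-- in a surface the number of arcs depends on the boundary only -/
theorem chi_cb_two (h : Mf 2 A) {g : P → ℤ} (hg : ∀ x, x ∉ A → g x = 0) : chi A (cb g) = 0 := by
  rw [chi_cb' h hg]; norm_num

theorem sum_eps_ind (E : Set P) : ∑ a, eps a * ind E a = ee E := by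
  rw [ee, sum_filter]
  exact sum_congr rfl fun a _ => by unfold ind; split_ifs <;> simp

theorem chi_cb_ind (h : Mf 3 A) {E : Set P} (hE : E ⊆ A) : chi A (cb (ind E)) = -2 * ee E := by
  rw [chi_cb h fun x hx => ind_of_not fun k => hx (hE k), sum_eps_ind]

/-- the numerical part of MOVE -/
theorem chi_move (h : Mf 3 A) (z : P → P → ℤ) {E : Set P} (hE : E ⊆ A) :
    chi A (z - cb (ind E)) = chi A z + 2 * ee E := by
  rw [chi_sub, chi_cb_ind h hE]; ring

theorem chi_Rm (h : Mf 3 A) : chi A (Rm A) = chi A (Rp A) - 2 * ee A := by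
  rw [Rm_eq, chi_add, chi_cb_ind h subset_rfl]; ring

theorem Mf.mono {d : ℕ} {B : Set P} (h : Mf d A) (hB : B ⊆ A) : Mf d B :=
  have k : ∀ c : Ch P, Mt B c → Mt A c := fun _ ⟨a, ha, h⟩ => ⟨a, ha, hB h⟩
  ⟨fun c hc => h.card_le c (k c hc), fun c hc => h.eul c (k c hc), fun c hc => h.conn c (k c hc),
    fun c hc => h.pure c (k c hc)⟩

/-- the change of `chi` along a function supported in `B ⊆ A` can be read in `B` -/
theorem chi_cb_sub (h : Mf 3 A) {B : Set P} (hB : B ⊆ A) {g : P → ℤ} (hg : ∀ x, x ∉ B → g x = 0) :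
    chi A (cb g) = chi B (cb g) := by
  rw [chi_cb h fun x hx => hg x fun k => hx (hB k), chi_cb (h.mono hB) hg]

/-- alternating sum over the faces of a simplex -/
theorem sum_faces (e : Ch P) : ∑ c ∈ univ.filter (· ≤ e), c.sg = -1 := by
  have h0 := sum_powerset_neg_one_pow_card_of_nonempty e.2.1
  rw [← add_sum_erase _ _ (empty_mem_powerset _)] at h0
  have : ∑ c ∈ univ.filter (· ≤ e), c.sg = ∑ m ∈ e.1.powerset.erase ∅, (-1 : ℤ) ^ m.card := by
    refine sum_bij (fun c _ => c.1) (fun c hc => ?_) (fun _ _ _ _ h => Ch.ext h) (fun m hm => ?_)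
      fun _ _ => rfl
    · exact mem_erase.2 ⟨c.2.1.ne_empty, mem_powerset.2 (mem_filter.1 hc).2⟩
    · obtain ⟨h1, h2⟩ := mem_erase.1 hm
      exact ⟨e.sub m (nonempty_iff_ne_empty.2 h1) (mem_powerset.1 h2),
        mem_filter.2 ⟨mem_univ _, mem_powerset.1 h2⟩, rfl⟩
  rw [this]
  simp only [card_empty, pow_zero] at h0
  omega

/-- `f` has Euler-acyclic fibres over the simplices -/
def Acyc (f : Q → P) : Prop := ∀ e : Ch P, eu (f ⁻¹' e.1) = 1

theorem Acyc.fib {f : Q → P} (hf : Monotone f) (h : Acyc f) (e : Ch P) :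
    ∑ d ∈ univ.filter (fun d => Ch.img f hf d = e), d.sg = e.sg := by
  induction e using WellFoundedLT.induction with
  | ind e ih =>
    have h1 : ∑ c ∈ univ.filter (· ≤ e), ∑ d ∈ univ.filter (fun d => Ch.img f hf d = c), d.sg
        = -1 := by
      rw [← neg_eq_iff_eq_neg, ← h e, eu, neg_inj]
      rw [← sum_fiberwise_of_maps_to (s := univ.filter fun c : Ch Q => ∀ x ∈ c.1, x ∈ f ⁻¹' e.1)
        (t := univ.filter (· ≤ e)) (g := Ch.img f hf) fun d hd => mem_filter.2 ⟨mem_univ _,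
          fun x hx => let ⟨a, ha, k⟩ := Ch.mem_img.1 hx; k ▸ (mem_filter.1 hd).2 a ha⟩]
      refine sum_congr rfl fun c hc => sum_congr ?_ fun _ _ => rfl
      ext d
      simp only [mem_filter, mem_univ, true_and]
      exact ⟨fun k => ⟨fun x hx => (mem_filter.1 hc).2 (k ▸ Ch.mem_img.2 ⟨x, hx, rfl⟩), k⟩,
        fun k => k.2⟩
    have h2 := sum_faces e
    have he : e ∈ univ.filter (· ≤ e) := mem_filter.2 ⟨mem_univ _, le_rfl⟩
    rw [← add_sum_erase _ _ he] at h1 h2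
    rw [sum_congr rfl fun c hc => ih c (lt_of_le_of_ne (mem_filter.1 (mem_erase.1 hc).2).2
      (mem_erase.1 hc).1)] at h1
    exact add_right_cancel (h1.trans h2.symm)

theorem Acyc.sum {f : Q → P} (hf : Monotone f) (h : Acyc f) (F : Ch P → ℤ) :
    ∑ d : Ch Q, d.sg * F (Ch.img f hf d) = ∑ e : Ch P, e.sg * F e := by
  rw [← sum_fiberwise (s := univ) (g := Ch.img f hf)]
  refine sum_congr rfl fun e _ => ?_
  rw [← h.fib hf e, sum_mul]
  exact sum_congr rfl fun d hd => by rw [(mem_filter.1 hd).2]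

theorem Acyc.chi {f : Q → P} (hf : Monotone f) (h : Acyc f) (z : P → P → ℤ) :
    chi (f ⁻¹' A) (pb f z) = chi A z := by
  have := h.sum hf fun e => if Mt A e then z e.bot e.top else 0
  simp only [mt_img, Ch.top_img, Ch.bot_img, mul_ite, mul_zero] at this
  rw [Hp13.chi, Hp13.chi, sum_filter, sum_filter]
  exact this

theorem Acyc.crs {f : Q → P} (hf : Monotone f) (h : Acyc f) (z : P → P → ℤ) :
    crs (f ⁻¹' A) (pb f z) = crs A z := by
  have := h.sum hf fun e => if Mt A e ∧ e.bot ∉ A ∧ e.top ∉ A then z e.bot e.top else 0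
  simp only [mt_img, Ch.top_img, Ch.bot_img, mul_ite, mul_zero] at this
  rw [Hp13.crs, Hp13.crs, sum_filter, sum_filter]
  exact this

theorem Acyc.eu {f : Q → P} (hf : Monotone f) (h : Acyc f) (E : Set P) : eu (f ⁻¹' E) = eu E := by
  have := h.sum hf fun e => if ∀ x ∈ e.1, x ∈ E then 1 else 0
  simp only [mul_ite, mul_zero, mul_one] at this
  rw [Hp13.eu, Hp13.eu, sum_filter, sum_filter, ← this]
  refine congrArg _ (sum_congr rfl fun d _ => if_congr ?_ rfl rfl)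
  exact ⟨fun k x hx => let ⟨a, ha, e⟩ := Ch.mem_img.1 hx; e ▸ k a ha,
    fun k a ha => k _ (Ch.mem_img.2 ⟨a, ha, rfl⟩)⟩

theorem Acyc.ee {f : Q → P} (hf : Monotone f) (h : Acyc f) (E : Set P) : ee (f ⁻¹' E) = ee E := by
  have := h.sum hf fun e => ind E e.top
  simp only [Ch.top_img] at this
  rw [sum_top (ind E), sum_eps_ind, show (fun d : Ch Q => d.sg * ind E (f d.top)) =
    fun d : Ch Q => d.sg * ind (f ⁻¹' E) d.top from rfl, sum_top, sum_eps_ind] at this
  exact neg_injective this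

theorem Acyc.comp {R : Type} [PartialOrder R] [Fintype R] {f : Q → P} {g : R → Q}
    (hg : Monotone g) (h : Acyc f) (h' : Acyc g) : Acyc (f ∘ g) :=
  fun e => (h'.eu hg (f ⁻¹' e.1)).trans (h e)

/-- a cone point -/
theorem eu_cone {E : Set P} {m : P} (hm : m ∈ E) (h : ∀ x ∈ E, Cm m x) : eu E = 1 := by
  have hp : Ch.pt m ∈ univ.filter (fun c : Ch P => ∀ x ∈ c.1, x ∈ E) := by simpa using hm
  rw [eu, ← add_sum_erase _ _ hp, Ch.sg_pt]
  have k : ∀ c ∈ (univ.filter (fun c : Ch P => ∀ x ∈ c.1, x ∈ E)).erase (Ch.pt m),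
      m ∈ c.1 → (c.1.erase m).Nonempty := fun c hc hmc => by
    by_contra k
    refine (mem_erase.1 hc).1 (Ch.ext ?_)
    rw [not_nonempty_iff_eq_empty] at k
    rw [← insert_erase hmc, k]; rfl
  rw [sum_involution (fun c hc => if hmc : m ∈ c.1 then c.sub _ (k c hc hmc) (erase_subset _ _)
    else c.ins m fun x hx => h x ((mem_filter.1 (mem_erase.1 hc).2).2 x hx))]
  · simp
  · intro c hc
    split_ifs with hmc
    · simp only [Ch.sg, Ch.sub_val]
      rw [← card_erase_add_one hmc, pow_succ]; ring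
    · rw [Ch.sg_ins _ _ hmc]; ring
  · intro c hc _ e
    have := congrArg (fun c : Ch P => m ∈ c.1) e
    split_ifs at this with hmc <;> simp [hmc] at this
  · intro c hc
    have hc' := (mem_filter.1 (mem_erase.1 hc).2).2
    refine mem_erase.2 ⟨fun e => ?_, mem_filter.2 ⟨mem_univ _, ?_⟩⟩
    · split_ifs at e with hmc
      · have := congrArg (fun c : Ch P => m ∈ c.1) e
        simp at this
      · obtain ⟨x, hx⟩ := c.2.1
        have : x ∈ (Ch.pt m).1 := e ▸ mem_insert_of_mem hx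
        exact hmc (mem_singleton.1 this ▸ hx)
    · split_ifs with hmc
      · exact fun x hx => hc' x (mem_of_mem_erase hx)
      · exact fun x hx => (mem_insert.1 hx).elim (fun e => e ▸ hm) (hc' x)
  · intro c hc
    refine Ch.ext ?_
    by_cases hmc : m ∈ c.1
    · simp [hmc, insert_erase hmc]
    · simp [hmc, erase_insert hmc]

theorem acyc_id : Acyc (id : P → P) := fun e =>
  eu_cone (m := e.top) e.top_mem fun _ hx => e.cm e.top_mem hx

end Crest.Agent.X212.Hp13
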